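import Mathlib

/-!
P371 (lifting lemma): products of edge differences of `ZMod 2`-valued vertex functions, viewed as
cochains on vertex sequences, and the identity that exhibits the effect of changing one factor as
a coboundary.
-/

open Finset

namespace Vale.Agent.P371.Lift

variable {α : Type*}

/-- The sequence `v` without its entry at position `i`. -/
def face (v : ℕ → α) (i : ℕ) : ℕ → α := fun t => if t < i then v t else v (t + 1)

/-- Coboundary of a cochain on sequences: the sum over the first `d + 2` faces. -/
def bd (P : (ℕ → α) → ZMod 2) (d : ℕ) (v : ℕ → α) : ZMod 2 :=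
  ∑ i ∈ range (d + 2), P (face v i)

/-- The product of the differences of `f r` along the edges `r < d` of a sequence. -/
def prodE : (ℕ → α → ZMod 2) → ℕ → (ℕ → α) → ZMod 2
  | _, 0, _ => 1
  | f, d + 1, v => (f 0 (v 0) + f 0 (v 1)) * prodE (fun r => f (r + 1)) d (fun t => v (t + 1))

/-- `prodE` with the value of `f m` at vertex `m` in place of its difference along edge `m`. -/
def mid : (ℕ → α → ZMod 2) → ℕ → ℕ → (ℕ → α) → ZMod 2
  | f, 0, d, v => f 0 (v 0) * prodE (fun r => f (r + 1)) d v
  | _, _ + 1, 0, _ => 0
  | f, m + 1, d + 1, v =>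
      (f 0 (v 0) + f 0 (v 1)) * mid (fun r => f (r + 1)) m d (fun t => v (t + 1))

lemma face_zero (v : ℕ → α) : face v 0 = fun t => v (t + 1) := by
  funext t; simp [face]

lemma face_succ_tail (v : ℕ → α) (i : ℕ) :
    (fun t => face v (i + 1) (t + 1)) = face (fun t => v (t + 1)) i := by
  funext t; simp [face]

lemma face_succ_zero (v : ℕ → α) (i : ℕ) : face v (i + 1) 0 = v 0 := by simp [face]

lemma face_succ_succ_one (v : ℕ → α) (i : ℕ) : face v (i + 2) 1 = v 1 := by simp [face]

lemma face_one_one (v : ℕ → α) : face v 1 1 = v 2 := by simp [face]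

/-- Coboundary of an edge difference times a cochain on the tail. -/
lemma bd_cons (g : α → ZMod 2) (P : (ℕ → α) → ZMod 2) (d : ℕ) (v : ℕ → α) :
    bd (fun w => (g (w 0) + g (w 1)) * P (fun t => w (t + 1))) (d + 1) v
      = (g (v 0) + g (v 1)) * bd P d (fun t => v (t + 1)) := by
  unfold bd
  rw [Finset.sum_range_succ', Finset.sum_range_succ']
  conv_rhs => rw [Finset.sum_range_succ']
  simp only [face_succ_tail, face_succ_zero, face_zero, zero_add, face_succ_succ_one,
    face_one_one, mul_add, Finset.mul_sum]
  have h2 : ∀ x : ZMod 2, x + x = 0 := CharTwo.add_self_eq_zero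
  rw [add_assoc]
  congr 1
  linear_combination (norm := ring_nf) P (fun t => v (t + 1 + 1)) * h2 (g (v 2))

/-- A product of edge differences is a cocycle. -/
lemma bd_prodE : ∀ (d : ℕ) (f : ℕ → α → ZMod 2) (v : ℕ → α), bd (prodE f d) d v = 0
  | 0, f, v => by
      simp only [bd, prodE, Finset.sum_const, Finset.card_range]
      rfl
  | d + 1, f, v => by
      show bd (fun w => (f 0 (w 0) + f 0 (w 1)) *
        prodE (fun r => f (r + 1)) d (fun t => w (t + 1))) (d + 1) v = 0
      rw [bd_cons, bd_prodE d, mul_zero]

/-- The coboundary of `mid f m d` is the product of all the differences. -/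
lemma bd_mid : ∀ (m d : ℕ), m ≤ d → ∀ (f : ℕ → α → ZMod 2) (v : ℕ → α),
    bd (mid f m d) d v = prodE f (d + 1) v
  | 0, d, _, f, v => by
      have hc := bd_prodE d (fun r => f (r + 1)) v
      simp only [bd, mid, prodE] at hc ⊢
      rw [Finset.sum_range_succ'] at hc ⊢
      simp only [face_zero, face_succ_zero] at hc ⊢
      rw [← Finset.mul_sum]
      linear_combination f 0 (v 0) * hc
        - f 0 (v 0) * (CharTwo.add_self_eq_zero (prodE (fun r => f (r + 1)) d (fun t => v (t + 1))))
  | m + 1, d + 1, h, f, v => by
      show bd (fun w => (f 0 (w 0) + f 0 (w 1)) *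
        mid (fun r => f (r + 1)) m d (fun t => w (t + 1))) (d + 1) v = _
      rw [bd_cons, bd_mid m d (by omega)]
      rfl

/-- `prodE` only depends on the factors below `d`. -/
lemma prodE_congr : ∀ (d : ℕ) (f g : ℕ → α → ZMod 2) (v : ℕ → α),
    (∀ r < d, f r = g r) → prodE f d v = prodE g d v
  | 0, _, _, _, _ => rfl
  | d + 1, f, g, v, h => by
      simp only [prodE, h 0 (by omega)]
      rw [prodE_congr d (fun r => f (r + 1)) (fun r => g (r + 1)) _ fun r hr => h (r + 1) (by omega)]

/-- `prodE` is additive in each factor. -/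
lemma prodE_add : ∀ (d m : ℕ), m < d → ∀ (f : ℕ → α → ZMod 2) (a b : α → ZMod 2) (v : ℕ → α),
    prodE (Function.update f m (a + b)) d v
      = prodE (Function.update f m a) d v + prodE (Function.update f m b) d v
  | 0, _, h, _, _, _, _ => absurd h (by omega)
  | d + 1, 0, _, f, a, b, v => by
      have : ∀ c : α → ZMod 2, (fun r => Function.update f 0 c (r + 1)) = fun r => f (r + 1) := by
        intro c; funext r; simp
      simp only [prodE, this, Function.update_self, Pi.add_apply]
      ring
  | d + 1, m + 1, h, f, a, b, v => by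
      have : ∀ c : α → ZMod 2, (fun r => Function.update f (m + 1) c (r + 1))
          = Function.update (fun r => f (r + 1)) m c := by
        intro c; funext r; simp [Function.update_apply]
      simp only [prodE, this]
      rw [prodE_add d m (by omega)]
      rw [Function.update_of_ne (by omega), Function.update_of_ne (by omega),
        Function.update_of_ne (by omega)]
      ring

/-- The product vanishes once a factor is constant along the sequence. -/
lemma prodE_eq_zero : ∀ (d r : ℕ), r < d → ∀ (f : ℕ → α → ZMod 2) (v : ℕ → α),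
    (f r (v r) = f r (v (r + 1))) → prodE f d v = 0
  | 0, _, h, _, _, _ => absurd h (by omega)
  | d + 1, 0, _, f, v, h => by
      simp [prodE, h, CharTwo.add_self_eq_zero]
  | d + 1, r + 1, hr, f, v, h => by
      simp only [prodE]
      rw [prodE_eq_zero d r (by omega) (fun s => f (s + 1)) (fun t => v (t + 1)) h, mul_zero]

/-- `prodE` equals one once each difference equals one. -/
lemma prodE_eq_one : ∀ (d : ℕ) (f : ℕ → α → ZMod 2) (v : ℕ → α),
    (∀ r < d, f r (v r) + f r (v (r + 1)) = 1) → prodE f d v = 1
  | 0, _, _, _ => rfl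
  | d + 1, f, v, h => by
      simp only [prodE]
      rw [h 0 (by omega), one_mul, prodE_eq_one d _ _ fun r hr => h (r + 1) (by omega)]

/-- Values of the factors at the vertices determine `mid`. -/
lemma mid_congr_map : ∀ (m d : ℕ) (f : ℕ → α → ZMod 2) (v w : ℕ → α),
    (∀ r ≤ d, r ≠ m → ∀ s t, s ≤ d → t ≤ d → f r (v s) + f r (v t) = f r (w s) + f r (w t)) →
    (∀ t ≤ d, f m (v t) = f m (w t)) → mid f m d v = mid f m d w
  | 0, d, f, v, w, h, hs => by
      have key : ∀ (d : ℕ) (g : ℕ → α → ZMod 2) (v w : ℕ → α),
          (∀ r < d, g r (v r) + g r (v (r + 1)) = g r (w r) + g r (w (r + 1))) →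
          prodE g d v = prodE g d w := by
        intro d
        induction d with
        | zero => intros; rfl
        | succ d ih =>
            intro g v w hg
            simp only [prodE]
            rw [hg 0 (by omega), ih _ (fun t => v (t + 1)) (fun t => w (t + 1))
              fun r hr => hg (r + 1) (by omega)]
      simp only [mid]
      rw [hs 0 (by omega), key d _ v w fun r hr => h (r + 1) (by omega) (by omega) r (r + 1)
        (by omega) (by omega)]
  | m + 1, 0, _, _, _, _, _ => rfl
  | m + 1, d + 1, f, v, w, h, hs => by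
      simp only [mid]
      rw [h 0 (by omega) (by omega) 0 1 (by omega) (by omega),
        mid_congr_map m d (fun r => f (r + 1)) (fun t => v (t + 1)) (fun t => w (t + 1))
          (fun r hr hm s t hs' ht => h (r + 1) (by omega) (by omega) _ _ (by omega) (by omega))
          (fun t ht => hs (t + 1) (by omega))]

/-- `mid` vanishes once one of the other factors is constant along the sequence. -/
lemma mid_eq_zero_of_const : ∀ (m d r : ℕ) (f : ℕ → α → ZMod 2) (v : ℕ → α), m ≤ d → r ≤ d →
    r ≠ m → (∀ s t, s ≤ d → t ≤ d → f r (v s) = f r (v t)) → mid f m d v = 0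
  | 0, d, 0, _, _, _, _, hne, _ => absurd rfl hne
  | 0, d, r + 1, f, v, _, hr, _, h => by
      simp only [mid]
      rw [prodE_eq_zero d r (by omega) (fun s => f (s + 1)) v (h r (r + 1) (by omega) (by omega)),
        mul_zero]
  | m + 1, 0, _, _, _, hm, _, _, _ => absurd hm (by omega)
  | m + 1, d + 1, 0, f, v, _, _, _, h => by
      simp [mid, h 0 1 (by omega) (by omega), CharTwo.add_self_eq_zero]
  | m + 1, d + 1, r + 1, f, v, hm, hr, hne, h => by
      simp only [mid]
      rw [mid_eq_zero_of_const m d r (fun s => f (s + 1)) (fun t => v (t + 1)) (by omega) (by omega)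
        (by omega) fun s t hs ht => h (s + 1) (t + 1) (by omega) (by omega), mul_zero]

/-- `mid` vanishes once its special factor vanishes along the sequence. -/
lemma mid_eq_zero_of_zero : ∀ (m d : ℕ) (f : ℕ → α → ZMod 2) (v : ℕ → α), m ≤ d →
    (∀ t ≤ d, f m (v t) = 0) → mid f m d v = 0
  | 0, d, f, v, _, h => by simp [mid, h 0 (by omega)]
  | m + 1, 0, _, _, hm, _ => absurd hm (by omega)
  | m + 1, d + 1, f, v, hm, h => by
      simp only [mid]
      rw [mid_eq_zero_of_zero m d (fun s => f (s + 1)) (fun t => v (t + 1)) (by omega)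
        fun t ht => h (t + 1) (by omega), mul_zero]

end Vale.Agent.P371.Lift
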