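import Mathlib
import Vale.Agent.P371.Lift.Cochain

/-!
P371 (lifting lemma): the reflected Kuhn grid on a product of cube boundaries (one cube of each
dimension `1, ..., N`, signs taken modulo one global sign per cube) and a unit cube of dimension
`N - 1`, and the fact that it is a `ZMod 2` cycle relative to the boundary of the unit cube.
-/

open Finset

namespace Vale.Agent.P371.Lift

variable {N : ℕ}

/-- Pairs `i < l`, stored as `⟨l, i⟩`. -/
abbrev Pair (N : ℕ) := Σ l : Fin N, Fin (l : ℕ)

/-- The equations: one for each pair, and `N - 1` further ones. -/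
abbrev Idx (N : ℕ) := Pair N ⊕ Fin (N - 1)

/-- The coordinates: block `l` has `l + 1` signed ones; `N - 1` further ones are nonnegative. -/
abbrev Crd (N : ℕ) := (Σ l : Fin N, Fin ((l : ℕ) + 1)) ⊕ Fin (N - 1)

/-- Number of equations, the dimension of the grid. -/
def dimN (N : ℕ) : ℕ := Fintype.card (Idx N)

/-- Raw data of a top simplex: start levels, order of increments, signs. -/
abbrev Cell (N m : ℕ) := (Crd N → Fin (m + 1)) × (Fin (dimN N) → Crd N) × (Crd N → ZMod 2)

/-- The sign of a bit. -/
def sg (a : ZMod 2) : ℤ := if a = 0 then 1 else -1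

lemma sg_add : ∀ a b : ZMod 2, sg (a + b) = sg a * sg b := by decide

lemma abs_sg : ∀ a : ZMod 2, |sg a| = 1 := by decide

@[simp] lemma sg_zero : sg 0 = 1 := rfl

/-- Validity: every block has exactly one coordinate that stays at level `m` with sign bit `0`,
all other coordinates move exactly once. -/
structure Valid {m : ℕ} (u : Cell N m) : Prop where
  inj : Function.Injective u.2.1
  low : ∀ t, (u.1 (u.2.1 t) : ℕ) < m
  pinned : ∀ k, (∀ t, u.2.1 t ≠ k) → (u.1 k : ℕ) = m ∧ u.2.2 k = 0
  moves : ∀ r : Fin (N - 1), ∃ t, u.2.1 t = Sum.inr r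
  pos : ∀ r : Fin (N - 1), u.2.2 (Sum.inr r) = 0
  pin : ∀ l : Fin N, ∃! i, ∀ t, u.2.1 t ≠ Sum.inl ⟨l, i⟩

open Classical in
/-- The top simplices. -/
noncomputable def cells (N m : ℕ) : Finset (Cell N m) := univ.filter Valid

lemma mem_cells {m : ℕ} {u : Cell N m} : u ∈ cells N m ↔ Valid u := by
  classical exact Finset.mem_filter.trans (and_iff_right (Finset.mem_univ _))

/-- Level of coordinate `k` at vertex `t`. -/
def lev {m : ℕ} (u : Cell N m) (t : ℕ) (k : Crd N) : ℕ :=
  (u.1 k : ℕ) + if ∃ j : Fin (dimN N), (j : ℕ) < t ∧ u.2.1 j = k then 1 else 0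

/-- Vertex `t` of a simplex. -/
def vert {m : ℕ} (u : Cell N m) (t : ℕ) : Crd N → ℤ := fun k => sg (u.2.2 k) * (lev u t k : ℤ)

/-- Sign change of whole blocks. -/
def flipV (g : Fin N → ZMod 2) (v : Crd N → ℤ) : Crd N → ℤ := fun k =>
  match k with
  | .inl p => sg (g p.1) * v (.inl p)
  | .inr r => v (.inr r)

/-- A lattice point of the space. -/
structure IsVert (m : ℕ) (v : Crd N → ℤ) : Prop where
  le : ∀ p, |v (.inl p)| ≤ m
  pin : ∀ l : Fin N, ∃ i, |v (.inl ⟨l, i⟩)| = m
  mem : ∀ r, 0 ≤ v (.inr r) ∧ v (.inr r) ≤ m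

lemma IsVert.flip {m : ℕ} {v : Crd N → ℤ} (h : IsVert m v) (g : Fin N → ZMod 2) :
    IsVert m (flipV g v) where
  le p := by simpa [flipV, abs_mul, abs_sg] using h.le p
  pin l := by
    obtain ⟨i, hi⟩ := h.pin l
    exact ⟨i, by simpa [flipV, abs_mul, abs_sg] using hi⟩
  mem := h.mem

lemma lev_of_exists {m : ℕ} {u : Cell N m} {t : ℕ} {k : Crd N}
    (he : ∃ j : Fin (dimN N), (j : ℕ) < t ∧ u.2.1 j = k) : lev u t k = (u.1 k : ℕ) + 1 := by
  rw [lev, if_pos he]

lemma lev_of_not {m : ℕ} {u : Cell N m} {t : ℕ} {k : Crd N}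
    (he : ¬∃ j : Fin (dimN N), (j : ℕ) < t ∧ u.2.1 j = k) : lev u t k = (u.1 k : ℕ) := by
  rw [lev, if_neg he, add_zero]

lemma lev_le {m : ℕ} {u : Cell N m} (h : Valid u) (t : ℕ) (k : Crd N) : lev u t k ≤ m := by
  unfold lev
  split_ifs with he
  · obtain ⟨j, -, rfl⟩ := he
    exact h.low j
  · simpa using Nat.lt_succ_iff.mp (u.1 k).isLt

lemma isVert_vert {m : ℕ} {u : Cell N m} (h : Valid u) (t : ℕ) : IsVert m (vert u t) where
  le p := by
    simp only [vert, abs_mul, abs_sg, one_mul, Nat.abs_cast, Nat.cast_le]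
    exact lev_le h t _
  pin l := by
    obtain ⟨i, hi, -⟩ := h.pin l
    refine ⟨i, ?_⟩
    have hne : ¬ ∃ j : Fin (dimN N), (j : ℕ) < t ∧ u.2.1 j = Sum.inl ⟨l, i⟩ :=
      fun ⟨j, _, hj⟩ => hi j hj
    simp [vert, lev, abs_mul, abs_sg, hne, (h.pinned _ hi).1]
  mem r := by
    simp only [vert, h.pos r, sg_zero, one_mul, Nat.cast_nonneg, true_and, Nat.cast_le]
    exact lev_le h t _

/-- What is used about a cochain in degree `dimN N - 1`. -/
structure Admissible (m d : ℕ) (P : (ℕ → Crd N → ℤ) → ZMod 2) : Prop where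
  inv : ∀ (g : Fin N → ZMod 2) v w, (∀ t ≤ d, IsVert m (v t)) → (∀ t ≤ d, w t = flipV g (v t)) →
    P w = P v
  bdry : ∀ v (r : Fin (N - 1)), (∀ t ≤ d, IsVert m (v t)) →
    ((∀ t ≤ d, v t (.inr r) = 0) ∨ (∀ t ≤ d, v t (.inr r) = (m : ℤ))) → P v = 0

lemma flipV_zero (v : Crd N → ℤ) : flipV 0 v = v := by
  funext k; cases k <;> simp [flipV]

lemma Admissible.congr {m d : ℕ} {P : (ℕ → Crd N → ℤ) → ZMod 2} (hP : Admissible m d P)
    (v w : ℕ → Crd N → ℤ) (hv : ∀ t ≤ d, IsVert m (v t)) (h : ∀ t ≤ d, w t = v t) : P w = P v :=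
  hP.inv 0 v w hv fun t ht => by rw [flipV_zero, h t ht]

lemma isVert_face {m : ℕ} {u : Cell N m} (h : Valid u) (i t : ℕ) :
    IsVert m (face (vert u) i t) := by
  unfold face
  split_ifs <;> exact isVert_vert h _

section Faces

variable {m d : ℕ} {P : (ℕ → Crd N → ℤ) → ZMod 2}

lemma Valid.reindex {u : Cell N m} (h : Valid u) (σ : Equiv.Perm (Fin (dimN N))) :
    Valid (u.1, u.2.1 ∘ σ, u.2.2) := by
  have hr : ∀ k, (∀ t, u.2.1 (σ t) ≠ k) ↔ ∀ t, u.2.1 t ≠ k := fun k =>
    (σ.surjective.forall (p := fun t => u.2.1 t ≠ k)).symm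
  refine ⟨h.inj.comp σ.injective, fun t => h.low _, fun k hk => h.pinned k ((hr k).1 hk),
    fun r => ?_, h.pos, fun l => ?_⟩
  · obtain ⟨t, ht⟩ := h.moves r
    exact ⟨σ.symm t, by simpa using ht⟩
  · exact (existsUnique_congr fun i => hr _).2 (h.pin l)

/-- Faces opposite to an interior vertex cancel. -/
lemma sum_face_mid (hP : Admissible m d P) (hd : dimN N = d + 1) {i : ℕ} (h0 : 0 < i)
    (hi : i ≤ d) : ∑ u ∈ cells N m, P (face (vert u) i) = 0 := by
  set σ : Equiv.Perm (Fin (dimN N)) :=
    Equiv.swap ⟨i - 1, by omega⟩ ⟨i, by omega⟩ with hσ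
  have hlt : ∀ (j : Fin (dimN N)) (t : ℕ), t ≠ i → (j : ℕ) < t → (σ j : ℕ) < t := by
    intro j t ht hj
    rw [hσ, Equiv.swap_apply_def]
    split_ifs with e e'
    · have := congrArg Fin.val e
      simp only at this ⊢
      omega
    · have := congrArg Fin.val e'
      simp only at this ⊢
      omega
    · exact hj
  have hlev : ∀ (u : Cell N m) (t : ℕ) (k : Crd N), t ≠ i →
      lev ((u.1, u.2.1 ∘ σ, u.2.2) : Cell N m) t k = lev u t k := by
    intro u t k ht
    simp only [lev, Function.comp_apply]
    congr 1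
    refine if_congr ⟨fun ⟨j, hj, e⟩ => ⟨σ j, hlt j t ht hj, e⟩,
      fun ⟨j, hj, e⟩ => ⟨σ j, hlt j t ht hj, ?_⟩⟩ rfl rfl
    simp [hσ, e]
  refine Finset.sum_involution (fun u _ => ((u.1, u.2.1 ∘ σ, u.2.2) : Cell N m)) ?_ ?_ ?_ ?_
  · intro u hu
    rw [hP.congr (face (vert u) i) (face (vert ((u.1, u.2.1 ∘ σ, u.2.2) : Cell N m)) i) (fun t _ => isVert_face (mem_cells.1 hu) i t) fun t _ => ?_,
      CharTwo.add_self_eq_zero]
    unfold face
    split_ifs with h <;> (funext k; simp only [vert]; rw [hlev u _ k (by omega)])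
  · intro u hu _ he
    have h' := congrArg (fun v : Cell N m => v.2.1 ⟨i, by omega⟩) he
    simp only [Function.comp_apply] at h'
    have := congrArg Fin.val ((mem_cells.1 hu).inj h')
    simp [hσ] at this
    omega
  · exact fun u hu => mem_cells.2 ((mem_cells.1 hu).reindex σ)
  · intro u hu
    ext <;> simp [hσ]

/-- Cyclic shift of the increments. -/
def rot (hd : dimN N = d + 1) : Equiv.Perm (Fin (dimN N)) where
  toFun j := if h : (j : ℕ) = d then ⟨0, by omega⟩ else ⟨j + 1, by omega⟩
  invFun j := if h : (j : ℕ) = 0 then ⟨d, by omega⟩ else ⟨j - 1, by omega⟩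
  left_inv j := by
    apply Fin.ext
    by_cases h : (j : ℕ) = d <;> simp [h]
  right_inv j := by
    apply Fin.ext
    by_cases h : (j : ℕ) = 0
    · simp [h]
    · have := j.isLt
      simp only [h, dite_false]
      rw [dif_neg (by omega)]
      show (j : ℕ) - 1 + 1 = j
      omega

lemma rot_val (hd : dimN N = d + 1) (j : Fin (dimN N)) (h : (j : ℕ) < d) :
    ((rot hd j : Fin _) : ℕ) = (j : ℕ) + 1 := by
  simp [rot, h.ne]

lemma rot_last (hd : dimN N = d + 1) : rot hd ⟨d, by omega⟩ = ⟨0, by omega⟩ := by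
  simp [rot]

lemma rot_symm_zero (hd : dimN N = d + 1) : (rot hd).symm ⟨0, by omega⟩ = ⟨d, by omega⟩ := by
  simp [rot]

/-- First increment. -/
def first (hd : dimN N = d + 1) (u : Cell N m) : Crd N := u.2.1 ⟨0, by omega⟩

/-- Last increment. -/
def last (hd : dimN N = d + 1) (u : Cell N m) : Crd N := u.2.1 ⟨d, by omega⟩

/-- The simplex next to `u` across the face opposite to its first vertex. -/
def up (hd : dimN N = d + 1) (u : Cell N m) : Cell N m :=
  (Function.update u.1 (first hd u) ⟨min ((u.1 (first hd u) : ℕ) + 1) m, by omega⟩,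
    u.2.1 ∘ rot hd, u.2.2)

/-- The simplex next to `u` across the face opposite to its last vertex. -/
def down (hd : dimN N = d + 1) (u : Cell N m) : Cell N m :=
  (Function.update u.1 (last hd u) ⟨(u.1 (last hd u) : ℕ) - 1, by omega⟩,
    u.2.1 ∘ (rot hd).symm, u.2.2)

lemma Valid.update {u : Cell N m} (h : Valid u) (t : Fin (dimN N)) (c : Fin (m + 1))
    (hc : (c : ℕ) < m) : Valid ((Function.update u.1 (u.2.1 t) c, u.2.1, u.2.2) : Cell N m) := by
  refine ⟨h.inj, fun s => ?_, fun k hk => ⟨?_, (h.pinned k hk).2⟩, h.moves, h.pos, h.pin⟩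
  · simp only [Function.update_apply]
    split_ifs
    · exact hc
    · exact h.low s
  · simp only [Function.update_of_ne (fun e : k = u.2.1 t => hk t e.symm)]
    exact (h.pinned k hk).1

lemma valid_up (hd : dimN N = d + 1) {u : Cell N m} (h : Valid u)
    (hA : (u.1 (first hd u) : ℕ) + 1 < m) : Valid (up hd u) :=
  (h.update ⟨0, by omega⟩ _ (by simp only; unfold first at hA ⊢; omega)).reindex (rot hd)

lemma valid_down (hd : dimN N = d + 1) {u : Cell N m} (h : Valid u) :
    Valid (down hd u) :=
  (h.update ⟨d, by omega⟩ _ (by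
    have := h.low ⟨d, by omega⟩
    simp only; unfold last at *; omega)).reindex (rot hd).symm

lemma first_down (hd : dimN N = d + 1) (u : Cell N m) : first hd (down hd u) = last hd u := by
  simp [first, last, down, rot_symm_zero]

lemma last_up (hd : dimN N = d + 1) (u : Cell N m) : last hd (up hd u) = first hd u := by
  simp [first, last, up, rot_last]

lemma lev_up (hd : dimN N = d + 1) {u : Cell N m} (h : Valid u)
    (hA : (u.1 (first hd u) : ℕ) + 1 < m) {t : ℕ} (ht : t ≤ d) (k : Crd N) :
    lev (up hd u) t k = lev u (t + 1) k := by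
  by_cases hk : k = first hd u
  · subst hk
    have h1 : ¬ ∃ j : Fin (dimN N), (j : ℕ) < t ∧ (up hd u).2.1 j = first hd u := by
      rintro ⟨j, hj, e⟩
      have := congrArg Fin.val (h.inj (e : u.2.1 (rot hd j) = u.2.1 ⟨0, by omega⟩))
      simp [rot_val hd j (by omega)] at this
    have h2 : ∃ j : Fin (dimN N), (j : ℕ) < t + 1 ∧ u.2.1 j = first hd u :=
      ⟨⟨0, by omega⟩, by simp, rfl⟩
    rw [lev_of_not h1, lev_of_exists h2]
    simp only [up, Function.update_self]; omega
  · have hq : ((up hd u).1 k : ℕ) = (u.1 k : ℕ) := by simp [up, Function.update_of_ne hk]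
    by_cases he : ∃ j : Fin (dimN N), (j : ℕ) < t + 1 ∧ u.2.1 j = k
    · obtain ⟨j, hj, e⟩ := he
      have hj0 : (j : ℕ) ≠ 0 := fun e0 =>
        hk (e.symm.trans (congrArg u.2.1 (Fin.ext e0)))
      have hr : rot hd ⟨j - 1, by omega⟩ = j :=
        Fin.ext (by rw [rot_val hd _ (by simp only; omega)]; simp only; omega)
      have he' : ∃ j : Fin (dimN N), (j : ℕ) < t ∧ (up hd u).2.1 j = k :=
        ⟨⟨j - 1, by omega⟩, by simp only; omega, (congrArg u.2.1 hr).trans e⟩
      rw [lev_of_exists he', lev_of_exists ⟨j, hj, e⟩, hq]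
    · have he' : ¬∃ j : Fin (dimN N), (j : ℕ) < t ∧ (up hd u).2.1 j = k :=
        fun ⟨j, hj, e⟩ => he ⟨rot hd j, by rw [rot_val hd j (by omega)]; omega, e⟩
      rw [lev_of_not he', lev_of_not he, hq]

lemma P_up (hP : Admissible m d P) (hd : dimN N = d + 1) {u : Cell N m} (h : Valid u)
    (hA : (u.1 (first hd u) : ℕ) + 1 < m) :
    P (face (vert (up hd u)) (d + 1)) = P (face (vert u) 0) := by
  refine hP.congr (face (vert u) 0) _ (fun t _ => isVert_face h 0 t) fun t ht => ?_
  simp only [face, Nat.not_lt_zero, if_false, if_pos (Nat.lt_succ_of_le ht)]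
  funext k
  simp only [vert, lev_up hd h hA ht]
  rfl

/-- The position of the coordinate that stays at the top level in block `b`. -/
noncomputable def pinAt {u : Cell N m} (h : Valid u) (b : Fin N) : Crd N :=
  Sum.inl ⟨b, (h.pin b).choose⟩

lemma pinAt_not {u : Cell N m} (h : Valid u) (b : Fin N) : ∀ t, u.2.1 t ≠ pinAt h b :=
  (h.pin b).choose_spec.1

/-- Bit added to the signs in block `b`. -/
def bump (b : Fin N) (s : ZMod 2) : Fin N → ZMod 2 := fun l => if l = b then s else 0

/-- Sign bits after flipping whole blocks. -/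
def flipS (g : Fin N → ZMod 2) (σ : Crd N → ZMod 2) : Crd N → ZMod 2 := fun k =>
  match k with
  | .inl p => σ (.inl p) + g p.1
  | .inr r => σ (.inr r)

open Classical in
/-- The simplex next to `u` across the face opposite to its first vertex, when that face lies in
the top level of the first increment. -/
noncomputable def swapPin (hd : dimN N = d + 1) (u : Cell N m) : Cell N m :=
  if h : Valid u then
    match first hd u with
    | .inl p => (Function.update (Function.update u.1 (first hd u) ⟨m, by omega⟩)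
          (pinAt h p.1) ⟨m - 1, by omega⟩,
        Function.update u.2.1 ⟨0, by omega⟩ (pinAt h p.1),
        flipS (bump p.1 (u.2.2 (first hd u))) u.2.2)
    | .inr _ => u
  else u

lemma swapPin_eq (hd : dimN N = d + 1) {u : Cell N m} (h : Valid u) {b : Fin N}
    {i : Fin ((b : ℕ) + 1)} (e : first hd u = Sum.inl ⟨b, i⟩) :
    swapPin hd u = (Function.update (Function.update u.1 (Sum.inl ⟨b, i⟩) ⟨m, by omega⟩)
          (pinAt h b) ⟨m - 1, by omega⟩,
        Function.update u.2.1 ⟨0, by omega⟩ (pinAt h b),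
        flipS (bump b (u.2.2 (Sum.inl ⟨b, i⟩))) u.2.2) := by
  simp only [swapPin, dif_pos h, e]

section Pin

variable (hd : dimN N = d + 1) {u : Cell N m} (h : Valid u) {b : Fin N}
  {i : Fin ((b : ℕ) + 1)}
include h

lemma pinAt_ne_first (e : first hd u = Sum.inl ⟨b, i⟩) : pinAt h b ≠ Sum.inl ⟨b, i⟩ :=
  fun he => pinAt_not h b ⟨0, by omega⟩ (by rw [he, ← e]; rfl)

lemma avoid_iff (e : first hd u = Sum.inl ⟨b, i⟩) (k : Crd N) :
    (∀ t, Function.update u.2.1 ⟨0, by omega⟩ (pinAt h b) t ≠ k) ↔
      k ≠ pinAt h b ∧ (k = Sum.inl ⟨b, i⟩ ∨ ∀ t, u.2.1 t ≠ k) := by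
  constructor
  · intro hk
    refine ⟨fun he => hk ⟨0, by omega⟩ (by simp [he]), or_iff_not_imp_left.2 fun hne t => ?_⟩
    by_cases ht : t = ⟨0, by omega⟩
    · subst ht
      exact fun he => hne (by rw [← he, ← e]; rfl)
    · simpa [Function.update_of_ne ht] using hk t
  · rintro ⟨h1, h2⟩ t
    by_cases ht : t = ⟨0, by omega⟩
    · subst ht
      simpa using Ne.symm h1
    · rw [Function.update_of_ne ht]
      rcases h2 with rfl | h2
      · exact fun he => ht (h.inj (he.trans e.symm))
      · exact h2 t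

lemma valid_swapPin (hm : 0 < m) (e : first hd u = Sum.inl ⟨b, i⟩) : Valid (swapPin hd u) := by
  have hne := pinAt_ne_first hd h e
  rw [swapPin_eq hd h e]
  refine ⟨fun s t hst => ?_, fun t => ?_, fun k hk => ?_, fun r => ?_, fun r => ?_, fun l => ?_⟩
  · simp only [Function.update_apply] at hst
    split_ifs at hst with h1 h2 h2
    · rw [h1, h2]
    · exact absurd hst.symm (pinAt_not h b t)
    · exact absurd hst (pinAt_not h b s)
    · exact h.inj hst
  · by_cases h1 : t = ⟨0, by omega⟩
    · subst h1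
      simp only [Function.update_self]
      omega
    · have h2 : u.2.1 t ≠ Sum.inl ⟨b, i⟩ := fun he => h1 (h.inj (he.trans e.symm))
      simpa [Function.update_of_ne h1, Function.update_of_ne (pinAt_not h b t),
        Function.update_of_ne h2] using h.low t
  · obtain ⟨h1, h2⟩ := (avoid_iff hd h e k).1 hk
    rcases h2 with rfl | h2
    · constructor
      · simp [Function.update_of_ne h1]
      · simp [flipS, bump, CharTwo.add_self_eq_zero]
    · have h3 : k ≠ Sum.inl ⟨b, i⟩ := fun he => h2 ⟨0, by omega⟩ (by rw [he, ← e]; rfl)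
      refine ⟨by simp [Function.update_of_ne h1, Function.update_of_ne h3, (h.pinned k h2).1], ?_⟩
      rcases k with ⟨l, j⟩ | r
      · have hl : l ≠ b := by
          rintro rfl
          exact h1 (by rw [pinAt, (h.pin l).choose_spec.2 j h2])
        simp [flipS, bump, hl, (h.pinned _ h2).2]
      · simp [flipS, h.pos r]
  · obtain ⟨t, ht⟩ := h.moves r
    have : t ≠ ⟨0, by omega⟩ := by
      rintro rfl
      exact absurd (ht.symm.trans e) (by simp)
    exact ⟨t, by simp [Function.update_of_ne this, ht]⟩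
  · simp [flipS, h.pos r]
  · simp only [avoid_iff hd h e]
    by_cases hl : l = b
    · subst hl
      refine ⟨i, ⟨hne.symm, Or.inl rfl⟩, ?_⟩
      rintro j ⟨h1, h2 | h2⟩
      · simpa using h2
      · exact absurd (by rw [pinAt, (h.pin l).choose_spec.2 j h2]) h1
    · refine (existsUnique_congr fun j => ?_).2 (h.pin l)
      have h1 : (Sum.inl ⟨l, j⟩ : Crd N) ≠ pinAt h b := by simp [pinAt, hl]
      have h2 : (Sum.inl ⟨l, j⟩ : Crd N) ≠ Sum.inl ⟨b, i⟩ := by simp [hl]
      simp [h1, h2]

lemma first_swapPin (e : first hd u = Sum.inl ⟨b, i⟩) :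
    first hd (swapPin hd u) = pinAt h b := by
  simp [first, swapPin_eq hd h e]

lemma swapPin_swapPin (hm : 0 < m) (e : first hd u = Sum.inl ⟨b, i⟩)
    (hA : (u.1 (Sum.inl ⟨b, i⟩) : ℕ) + 1 = m) : swapPin hd (swapPin hd u) = u := by
  have hv := valid_swapPin hd h hm e
  have hf : first hd (swapPin hd u) = Sum.inl ⟨b, (h.pin b).choose⟩ := first_swapPin hd h e
  have hne := pinAt_ne_first hd h e
  have hp : pinAt hv b = Sum.inl ⟨b, i⟩ := by
    have hi : ∀ t, (swapPin hd u).2.1 t ≠ Sum.inl ⟨b, i⟩ := by
      rw [swapPin_eq hd h e]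
      exact (avoid_iff hd h e _).2 ⟨hne.symm, Or.inl rfl⟩
    rw [pinAt, ← (hv.pin b).choose_spec.2 i hi]
  have hz : (Sum.inl ⟨b, (h.pin b).choose⟩ : Crd N) = pinAt h b := rfl
  rw [swapPin_eq hd hv hf, hp, hz, swapPin_eq hd h e]
  refine Prod.ext ?_ (Prod.ext ?_ ?_) <;> funext k
  · simp only [Function.update_apply]
    split_ifs with h1 h2
    · subst h1
      exact Fin.ext (by simp only; omega)
    · subst h2
      exact Fin.ext (h.pinned _ (pinAt_not h b)).1.symm
    · rfl
  · simp only [Function.update_idem]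
    rw [show (Sum.inl ⟨b, i⟩ : Crd N) = u.2.1 ⟨0, by omega⟩ from e.symm, Function.update_eq_self]
  · have hs : u.2.2 (Sum.inl ⟨b, (h.pin b).choose⟩) = 0 := (h.pinned _ (pinAt_not h b)).2
    rcases k with ⟨l, j⟩ | r
    · simp only [flipS, pinAt, bump, if_true, hs, zero_add]
      split_ifs with hl
      · rw [add_assoc, CharTwo.add_self_eq_zero, add_zero]
      · simp
    · rfl

lemma P_swapPin (hP : Admissible m d P) (e : first hd u = Sum.inl ⟨b, i⟩)
    (hA : (u.1 (Sum.inl ⟨b, i⟩) : ℕ) + 1 = m) :
    P (face (vert (swapPin hd u)) 0) = P (face (vert u) 0) := by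
  have hne := pinAt_ne_first hd h e
  refine hP.inv (bump b (u.2.2 (Sum.inl ⟨b, i⟩))) (face (vert u) 0) _
    (fun t _ => isVert_face h 0 t) fun t _ => ?_
  simp only [face, Nat.not_lt_zero, if_false]
  funext k
  have hlev : lev (swapPin hd u) (t + 1) k = lev u (t + 1) k := by
    rw [swapPin_eq hd h e]
    simp only [lev]
    by_cases hka : k = pinAt h b
    · subst hka
      have h2 : ∃ j : Fin (dimN N), (j : ℕ) < t + 1 ∧
          Function.update u.2.1 ⟨0, by omega⟩ (pinAt h b) j = pinAt h b :=
        ⟨⟨0, by omega⟩, by simp, by simp⟩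
      have h3 : ¬ ∃ j : Fin (dimN N), (j : ℕ) < t + 1 ∧ u.2.1 j = pinAt h b :=
        fun ⟨j, _, hj⟩ => pinAt_not h b j hj
      rw [Function.update_self, if_pos h2, if_neg h3, (h.pinned _ (pinAt_not h b)).1]
      simp only; omega
    · rw [Function.update_of_ne hka]
      by_cases hki : k = Sum.inl ⟨b, i⟩
      · subst hki
        have h2 : ¬ ∃ j : Fin (dimN N), (j : ℕ) < t + 1 ∧
            Function.update u.2.1 ⟨0, by omega⟩ (pinAt h b) j = Sum.inl ⟨b, i⟩ :=
          fun ⟨j, _, hj⟩ => (avoid_iff hd h e _).2 ⟨hka, Or.inl rfl⟩ j hj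
        have h3 : ∃ j : Fin (dimN N), (j : ℕ) < t + 1 ∧ u.2.1 j = Sum.inl ⟨b, i⟩ :=
          ⟨⟨0, by omega⟩, by simp, e⟩
        rw [Function.update_self, if_neg h2, if_pos h3]
        simp only; omega
      · rw [Function.update_of_ne hki]
        congr 1
        refine if_congr (exists_congr fun j => and_congr_right fun _ => ?_) rfl rfl
        by_cases hj : j = ⟨0, by omega⟩
        · rw [hj, Function.update_self]
          exact ⟨fun he => absurd he.symm hka, fun he => absurd (he.symm.trans e) hki⟩
        · rw [Function.update_of_ne hj]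
  rcases k with ⟨l, j⟩ | r
  · simp only [vert, hlev, flipV]
    rw [swapPin_eq hd h e]
    simp only [flipS, sg_add]
    ring
  · simp only [vert, hlev, flipV]
    rw [swapPin_eq hd h e]
    rfl

end Pin

/-- Flip of the sign of the last increment. -/
def flipLast (hd : dimN N = d + 1) (u : Cell N m) : Cell N m :=
  (u.1, u.2.1, Function.update u.2.2 (last hd u) (u.2.2 (last hd u) + 1))

lemma valid_flipLast (hd : dimN N = d + 1) {u : Cell N m} (h : Valid u) {p}
    (e : last hd u = Sum.inl p) : Valid (flipLast hd u) where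
  inj := h.inj
  low := h.low
  pinned k hk := ⟨(h.pinned k hk).1, by
    have : k ≠ last hd u := fun he => hk ⟨d, by omega⟩ he.symm
    simpa [flipLast, Function.update_of_ne this] using (h.pinned k hk).2⟩
  moves := h.moves
  pos r := by
    have : (Sum.inr r : Crd N) ≠ last hd u := by simp [e]
    simpa [flipLast, Function.update_of_ne this] using h.pos r
  pin := h.pin

/-- The two end faces cancel. -/
lemma sum_face_ends (hP : Admissible m d P) (hd : dimN N = d + 1) :
    ∑ u ∈ cells N m, (P (face (vert u) 0) + P (face (vert u) (d + 1))) = 0 := by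
  classical
  rw [Finset.sum_add_distrib,
    ← Finset.sum_filter_add_sum_filter_not (cells N m) (fun u => (u.1 (first hd u) : ℕ) + 1 < m)
      (fun u => P (face (vert u) 0)),
    ← Finset.sum_filter_add_sum_filter_not (cells N m) (fun u => 1 ≤ (u.1 (last hd u) : ℕ))
      (fun u => P (face (vert u) (d + 1)))]
  have hA : ∑ u ∈ (cells N m).filter (fun u => ¬(u.1 (first hd u) : ℕ) + 1 < m),
      P (face (vert u) 0) = 0 := by
    refine Finset.sum_involution (fun u _ => swapPin hd u) ?_ ?_ ?_ ?_
    · intro u hu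
      obtain ⟨hu, hlt⟩ := Finset.mem_filter.1 hu
      have h := mem_cells.1 hu
      have hl : (u.1 (first hd u) : ℕ) < m := h.low _
      rcases e : first hd u with ⟨b, i⟩ | r
      · rw [P_swapPin hd h hP e (by rw [← e]; omega), CharTwo.add_self_eq_zero]
      · have hv : ∀ t ≤ d, face (vert u) 0 t (Sum.inr r) = (m : ℤ) := by
          intro t _
          have he : ∃ j : Fin (dimN N), (j : ℕ) < t + 1 ∧ u.2.1 j = Sum.inr r :=
            ⟨⟨0, by omega⟩, by simp, e⟩
          simp only [face, Nat.not_lt_zero, if_false, vert, h.pos r, sg_zero, one_mul, lev,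
            if_pos he, Nat.cast_inj]
          rw [← e]; omega
        simp [swapPin, dif_pos h, e,
          hP.bdry _ r (fun t _ => isVert_face h 0 t) (Or.inr hv)]
    · intro u hu hne he
      obtain ⟨hu, hlt⟩ := Finset.mem_filter.1 hu
      have h := mem_cells.1 hu
      rcases e : first hd u with ⟨b, i⟩ | r
      · exact pinAt_ne_first hd h e
          (((first_swapPin hd h e).symm.trans (by rw [he])).trans e)
      · apply hne
        refine hP.bdry _ r (fun t _ => isVert_face h 0 t) (Or.inr fun t _ => ?_)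
        have hl : (u.1 (first hd u) : ℕ) < m := h.low _
        have he : ∃ j : Fin (dimN N), (j : ℕ) < t + 1 ∧ u.2.1 j = Sum.inr r :=
          ⟨⟨0, by omega⟩, by simp, e⟩
        simp only [face, Nat.not_lt_zero, if_false, vert, h.pos r, sg_zero, one_mul, lev,
          if_pos he, Nat.cast_inj]
        rw [← e]; omega
    · intro u hu
      obtain ⟨hu, hlt⟩ := Finset.mem_filter.1 hu
      have h := mem_cells.1 hu
      have hl : (u.1 (first hd u) : ℕ) < m := h.low _
      rcases e : first hd u with ⟨b, i⟩ | r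
      · refine Finset.mem_filter.2 ⟨mem_cells.2 (valid_swapPin hd h (by omega) e), ?_⟩
        rw [first_swapPin hd h e, swapPin_eq hd h e]
        simp only [Function.update_self]
        omega
      · rw [show swapPin hd u = u by simp [swapPin, dif_pos h, e]]
        exact Finset.mem_filter.2 ⟨hu, hlt⟩
    · intro u hu
      obtain ⟨hu, hlt⟩ := Finset.mem_filter.1 hu
      have h := mem_cells.1 hu
      have hl : (u.1 (first hd u) : ℕ) < m := h.low _
      rcases e : first hd u with ⟨b, i⟩ | r
      · exact swapPin_swapPin hd h (by omega) e (by rw [← e]; omega)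
      · have hs : swapPin hd u = u := by simp [swapPin, dif_pos h, e]
        simp only [hs]
  have hB : ∑ u ∈ (cells N m).filter (fun u => ¬1 ≤ (u.1 (last hd u) : ℕ)),
      P (face (vert u) (d + 1)) = 0 := by
    have key : ∀ u : Cell N m, Valid u → (u.1 (last hd u) : ℕ) = 0 →
        ∀ t ≤ d, lev u t (last hd u) = 0 := by
      intro u h h0 t ht
      have hn : ¬ ∃ j : Fin (dimN N), (j : ℕ) < t ∧ u.2.1 j = last hd u :=
        fun ⟨j, hj, e⟩ => by
          have := congrArg Fin.val (h.inj e)
          simp only at this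
          omega
      simp [lev, hn, h0]
    have hz : ∀ u : Cell N m, Valid u → (u.1 (last hd u) : ℕ) = 0 → ∀ r,
        last hd u = Sum.inr r → P (face (vert u) (d + 1)) = 0 := by
      intro u h h0 r e
      refine hP.bdry _ r (fun t _ => isVert_face h _ t) (Or.inl fun t ht => ?_)
      simp only [face, if_pos (Nat.lt_succ_of_le ht), vert, ← e, key u h h0 t ht, Nat.cast_zero,
        mul_zero]
    refine Finset.sum_involution
      (fun u _ => if (last hd u).isLeft then flipLast hd u else u) ?_ ?_ ?_ ?_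
    · intro u hu
      obtain ⟨hu, h0⟩ := Finset.mem_filter.1 hu
      have h := mem_cells.1 hu
      rcases e : last hd u with p | r
      · simp only [Sum.isLeft_inl, if_true]
        rw [hP.congr (face (vert u) (d + 1)) (face (vert (flipLast hd u)) (d + 1))
          (fun t _ => isVert_face h _ t) fun t ht => ?_, CharTwo.add_self_eq_zero]
        simp only [face, if_pos (Nat.lt_succ_of_le ht)]
        funext k
        simp only [vert, flipLast]
        rw [show lev ((u.1, u.2.1, Function.update u.2.2 (last hd u) (u.2.2 (last hd u) + 1)) :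
          Cell N m) t k = lev u t k from rfl]
        by_cases hk : k = last hd u
        · subst hk
          simp [key u h (by omega) t ht]
        · rw [Function.update_of_ne hk]
      · simp [hz u h (by omega) r e]
    · intro u hu hne he
      obtain ⟨hu, h0⟩ := Finset.mem_filter.1 hu
      have h := mem_cells.1 hu
      rcases e : last hd u with p | r
      · simp only [e, Sum.isLeft_inl, if_true] at he
        have := congrArg (fun v : Cell N m => v.2.2 (last hd u)) he
        simp [flipLast] at this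
      · exact hne (hz u h (by omega) r e)
    · intro u hu
      obtain ⟨hu, h0⟩ := Finset.mem_filter.1 hu
      split_ifs with hl
      · obtain ⟨p, e⟩ := Sum.isLeft_iff.1 hl
        exact Finset.mem_filter.2 ⟨mem_cells.2 (valid_flipLast hd (mem_cells.1 hu) e), h0⟩
      · exact Finset.mem_filter.2 ⟨hu, h0⟩
    · intro u hu
      by_cases hl : (last hd u).isLeft
      · have h2 : last hd (flipLast hd u) = last hd u := rfl
        simp only [hl, if_true, h2]
        refine Prod.ext rfl (Prod.ext rfl ?_)
        funext k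
        simp only [flipLast, h2]
        by_cases hk : k = last hd u
        · subst hk
          simp only [last, Function.update_self]
          rw [add_assoc, CharTwo.add_self_eq_zero, add_zero]
        · simp only [last] at hk ⊢
          rw [Function.update_of_ne hk, Function.update_of_ne hk]
      · simp [hl]
  have hC : ∑ u ∈ (cells N m).filter (fun u => (u.1 (first hd u) : ℕ) + 1 < m),
      P (face (vert u) 0) = ∑ u ∈ (cells N m).filter (fun u => 1 ≤ (u.1 (last hd u) : ℕ)),
      P (face (vert u) (d + 1)) := by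
    refine Finset.sum_bij' (fun u _ => up hd u) (fun u _ => down hd u) ?_ ?_ ?_ ?_ ?_
    · intro u hu
      obtain ⟨hu, hlt⟩ := Finset.mem_filter.1 hu
      refine Finset.mem_filter.2 ⟨mem_cells.2 (valid_up hd (mem_cells.1 hu) hlt), ?_⟩
      rw [last_up]
      simp only [up, Function.update_self]
      omega
    · intro u hu
      obtain ⟨hu, h1⟩ := Finset.mem_filter.1 hu
      have h := mem_cells.1 hu
      refine Finset.mem_filter.2 ⟨mem_cells.2 (valid_down hd h), ?_⟩
      have := h.low ⟨d, by omega⟩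
      rw [first_down]
      simp only [down, Function.update_self]
      unfold last at h1 ⊢
      omega
    · intro u hu
      obtain ⟨hu, hlt⟩ := Finset.mem_filter.1 hu
      refine Prod.ext ?_ (Prod.ext ?_ rfl)
      · simp only [down, last_up]
        simp only [up, Function.update_self, Function.update_idem, Function.update_eq_self_iff]
        exact Fin.ext (by simp only; omega)
      · funext j; simp [down, up]
    · intro u hu
      obtain ⟨hu, h1⟩ := Finset.mem_filter.1 hu
      refine Prod.ext ?_ (Prod.ext ?_ rfl)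
      · simp only [up, first_down]
        simp only [down, Function.update_self, Function.update_idem, Function.update_eq_self_iff]
        have := (u.1 (last hd u)).isLt
        exact Fin.ext (by simp only; omega)
      · funext j; simp [down, up]
    · intro u hu
      obtain ⟨hu, hlt⟩ := Finset.mem_filter.1 hu
      exact (P_up hP hd (mem_cells.1 hu) hlt).symm
  simp only [hA, hB, hC, add_zero, CharTwo.add_self_eq_zero]

/-- Coboundaries of admissible cochains sum to zero over the grid. -/
theorem sum_bd_eq_zero (hP : Admissible m d P) (hd : dimN N = d + 1) :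
    ∑ u ∈ cells N m, bd P d (vert u) = 0 := by
  simp only [bd, Finset.sum_range_succ', Finset.sum_range_succ _ d, Finset.sum_add_distrib]
  rw [Finset.sum_comm,
    Finset.sum_eq_zero fun i hi => sum_face_mid hP hd i.succ_pos (Finset.mem_range.1 hi),
    zero_add, ← Finset.sum_add_distrib]
  simp only [add_comm (P (face _ (d + 1)))]
  exact sum_face_ends hP hd

end Faces

end Vale.Agent.P371.Lift
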