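import Mathlib
import Vale.Agent.P371.Lift.Grid

/-!
P371 (lifting lemma): on the reflected Kuhn grid some simplex has every one of a system of sign
functions change along its designated edge (a Borsuk-Ulam statement for the real flag bundle,
combined with the Poincare-Miranda boundary conditions on the extra cube).
-/

open Finset

namespace Vale.Agent.P371.Lift

variable {N m : ℕ}

/-- Sort key of an equation. -/
def key : Idx N → ℕ
  | .inl p => (p.1 : ℕ) * N + (p.2 : ℕ)
  | .inr r => N * N + (r : ℕ)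

lemma key_injective : Function.Injective (key (N := N)) := by
  have small : ∀ p : Pair N, (p.1 : ℕ) * N + (p.2 : ℕ) < N * N := by
    rintro ⟨l, i⟩
    have h1 : ((l : ℕ) + 1) * N ≤ N * N := Nat.mul_le_mul_right N l.isLt
    have h2 : (i : ℕ) < N := i.isLt.trans l.isLt
    rw [Nat.succ_mul] at h1
    simp only
    omega
  rintro (⟨l, i⟩ | r) (⟨l', i'⟩ | r') h <;> simp only [key] at h
  · have hi : (i : ℕ) < N := i.isLt.trans l.isLt
    have hi' : (i' : ℕ) < N := i'.isLt.trans l'.isLt
    have hl : (l : ℕ) = l' := by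
      rcases lt_trichotomy (l : ℕ) l' with hc | hc | hc
      · have := Nat.mul_le_mul_right N (Nat.succ_le_of_lt hc)
        rw [Nat.succ_mul] at this; omega
      · exact hc
      · have := Nat.mul_le_mul_right N (Nat.succ_le_of_lt hc)
        rw [Nat.succ_mul] at this; omega
    obtain rfl := Fin.ext hl
    have : (i : ℕ) = i' := by omega
    simp [Fin.ext this]
  · have := small ⟨l, i⟩
    simp only at this
    omega
  · have := small ⟨l', i'⟩
    simp only at this
    omega
  · simp [Fin.ext_iff]; omega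

/-- The equations, to be ordered by `key`. -/
def Sorted (N : ℕ) := Idx N

instance : Fintype (Sorted N) := inferInstanceAs (Fintype (Idx N))

instance : LinearOrder (Sorted N) := LinearOrder.lift' (key (N := N)) key_injective

/-- The equations in increasing order of `key`. -/
noncomputable def enum (N : ℕ) : Fin (dimN N) ≃ Idx N :=
  (monoEquivOfFin (Sorted N) rfl).toEquiv

lemma enum_symm_lt {l : Fin N} {i j : Fin (l : ℕ)} (h : i < j) :
    (enum N).symm (Sum.inl ⟨l, i⟩) < (enum N).symm (Sum.inl ⟨l, j⟩) := by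
  refine (monoEquivOfFin (Sorted N) rfl).symm.strictMono ?_
  show key (Sum.inl (⟨l, i⟩ : Pair N)) < key (Sum.inl ⟨l, j⟩)
  simp only [key]
  have : (i : ℕ) < (j : ℕ) := h
  omega

/-- The factors as a sequence. -/
noncomputable def toSeq (f : Idx N → (Crd N → ℤ) → ZMod 2) (r : ℕ) (v : Crd N → ℤ) : ZMod 2 :=
  if h : r < dimN N then f (enum N ⟨r, h⟩) v else 0

/-- The smaller member of a pair. -/
def lower (p : Pair N) : Fin N := ⟨p.2, p.2.isLt.trans p.1.isLt⟩

/-- Bits with the symmetry of the pair entries and the boundary values of the cube equations. -/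
structure Signed (m : ℕ) (f : Idx N → (Crd N → ℤ) → ZMod 2) : Prop where
  pair : ∀ g v, IsVert m v → ∀ p : Pair N,
    f (.inl p) (flipV g v) = f (.inl p) v + (g p.1 + g (lower p))
  box : ∀ g v, IsVert m v → ∀ r, f (.inr r) (flipV g v) = f (.inr r) v
  bot : ∀ v, IsVert m v → ∀ r, v (.inr r) = 0 → f (.inr r) v = 0
  top : ∀ v, IsVert m v → ∀ r, v (.inr r) = (m : ℤ) → f (.inr r) v = 1

/-- Parity of the number of simplices on which all bits change. -/
noncomputable def total (m : ℕ) (f : Idx N → (Crd N → ℤ) → ZMod 2) : ZMod 2 :=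
  ∑ u ∈ cells N m, prodE (toSeq f) (dimN N) (vert u)

lemma Signed.diff {f : Idx N → (Crd N → ℤ) → ZMod 2} (hf : Signed m f) (g : Fin N → ZMod 2)
    {v w : Crd N → ℤ} (hv : IsVert m v) (hw : IsVert m w) (r : ℕ) :
    toSeq f r (flipV g v) + toSeq f r (flipV g w) = toSeq f r v + toSeq f r w := by
  unfold toSeq
  split_ifs with h
  · rcases enum N ⟨r, h⟩ with p | q
    · rw [hf.pair g v hv, hf.pair g w hw]
      linear_combination CharTwo.add_self_eq_zero (g p.1 + g (lower p))
    · rw [hf.box g v hv, hf.box g w hw]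
  · rfl

lemma Signed.shift {f f' : Idx N → (Crd N → ℤ) → ZMod 2} (hf : Signed m f) (hf' : Signed m f')
    (g : Fin N → ZMod 2) {v : Crd N → ℤ} (hv : IsVert m v) (r : ℕ) :
    toSeq f r (flipV g v) + toSeq f' r (flipV g v) = toSeq f r v + toSeq f' r v := by
  unfold toSeq
  split_ifs with h
  · rcases enum N ⟨r, h⟩ with p | q
    · rw [hf.pair g v hv, hf'.pair g v hv]
      linear_combination CharTwo.add_self_eq_zero (g p.1 + g (lower p))
    · rw [hf.box g v hv, hf'.box g v hv]
  · rfl

/-- The parity does not depend on the system of bits. -/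
theorem total_eq {f f' : Idx N → (Crd N → ℤ) → ZMod 2} (hf : Signed m f) (hf' : Signed m f') :
    total m f = total m f' := by
  set H : ℕ → ℕ → (Crd N → ℤ) → ZMod 2 :=
    fun k r => if r < k then toSeq f' r else toSeq f r with hH
  suffices hs : ∀ k ≤ dimN N, ∑ u ∈ cells N m, prodE (H k) (dimN N) (vert u) = total m f by
    rw [← hs _ le_rfl]
    refine Finset.sum_congr rfl fun u _ => prodE_congr _ _ _ _ fun r hr => ?_
    simp [hH, hr]
  intro k
  induction k with
  | zero =>
      intro _
      exact Finset.sum_congr rfl fun u _ => prodE_congr _ _ _ _ fun r _ => by simp [hH]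
  | succ k ih =>
      intro hk
      obtain ⟨d, hd⟩ : ∃ d, dimN N = d + 1 := ⟨dimN N - 1, by omega⟩
      set G := Function.update (H k) k (toSeq f k + toSeq f' k) with hG
      have hGk : G k = toSeq f k + toSeq f' k := by simp [hG]
      have hGr : ∀ r ≠ k, G r = toSeq f r ∨ G r = toSeq f' r := by
        intro r hr
        rw [hG, Function.update_of_ne hr, hH]
        simp only
        split_ifs <;> simp
      have hP : Admissible m d (mid G k d) := by
        refine ⟨fun g v w hv hw => ?_, fun v r hv hb => ?_⟩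
        · refine mid_congr_map k d G w v (fun r _ hr s t hs ht => ?_) fun t ht => ?_
          · rw [hw s hs, hw t ht]
            rcases hGr r hr with h | h <;> rw [h]
            · exact hf.diff g (hv s hs) (hv t ht) r
            · exact hf'.diff g (hv s hs) (hv t ht) r
          · rw [hw t ht, hGk]
            exact hf.shift hf' g (hv t ht) k
        · set j := (enum N).symm (Sum.inr r) with hj
          have hseq : ∀ (F : Idx N → (Crd N → ℤ) → ZMod 2) (x : Crd N → ℤ),
              toSeq F (j : ℕ) x = F (Sum.inr r) x := by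
            intro F x; simp [toSeq, hj]
          obtain ⟨c, hc⟩ : ∃ c : ZMod 2, ∀ t ≤ d,
              f (Sum.inr r) (v t) = c ∧ f' (Sum.inr r) (v t) = c := by
            rcases hb with hb | hb
            · exact ⟨0, fun t ht => ⟨hf.bot _ (hv t ht) r (hb t ht), hf'.bot _ (hv t ht) r (hb t ht)⟩⟩
            · exact ⟨1, fun t ht => ⟨hf.top _ (hv t ht) r (hb t ht), hf'.top _ (hv t ht) r (hb t ht)⟩⟩
          by_cases hjk : (j : ℕ) = k
          · refine mid_eq_zero_of_zero k d G v (by omega) fun t ht => ?_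
            rw [hGk, Pi.add_apply, ← hjk, hseq, hseq, (hc t ht).1, (hc t ht).2,
              CharTwo.add_self_eq_zero]
          · refine mid_eq_zero_of_const k d j G v (by omega) (by omega) hjk fun s t hs ht => ?_
            rcases hGr j hjk with h | h <;> rw [h, hseq, hseq]
            · rw [(hc s hs).1, (hc t ht).1]
            · rw [(hc s hs).2, (hc t ht).2]
      have h0 := sum_bd_eq_zero hP hd
      simp only [bd_mid k d (by omega), ← hd] at h0
      rw [hG] at h0
      simp only [prodE_add (dimN N) k (by omega), Finset.sum_add_distrib] at h0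
      have e1 : Function.update (H k) k (toSeq f k) = H k := by
        funext r; by_cases hr : r = k <;> simp [hH, hr]
      have e2 : Function.update (H k) k (toSeq f' k) = H (k + 1) := by
        funext r
        by_cases hr : r = k
        · simp [hH, hr]
        · simp only [hH, Function.update_of_ne hr]
          have : r < k + 1 ↔ r < k := by omega
          simp [this]
      rw [e1, e2, CharTwo.add_eq_zero] at h0
      rw [← h0, ih (by omega)]

/-- The last nonzero coordinate of a block. -/
noncomputable def topIdx (l : Fin N) (v : Crd N → ℤ) : Fin ((l : ℕ) + 1) :=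
  (univ.filter fun i => v (Sum.inl ⟨l, i⟩) ≠ 0).sup id

/-- The sign bit of the last nonzero coordinate of a block. -/
noncomputable def sig (l : Fin N) (v : Crd N → ℤ) : ZMod 2 :=
  if v (Sum.inl ⟨l, topIdx l v⟩) < 0 then 1 else 0

lemma topIdx_eq {l : Fin N} {v : Crd N → ℤ} {i : Fin ((l : ℕ) + 1)}
    (h : v (Sum.inl ⟨l, i⟩) ≠ 0) (h' : ∀ j, v (Sum.inl ⟨l, j⟩) ≠ 0 → j ≤ i) : topIdx l v = i :=
  le_antisymm (Finset.sup_le fun j hj => h' j (Finset.mem_filter.1 hj).2)
    (Finset.le_sup (f := id) (Finset.mem_filter.2 ⟨Finset.mem_univ _, h⟩))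

lemma topIdx_ne_zero {l : Fin N} {v : Crd N → ℤ} (h : ∃ i, v (Sum.inl ⟨l, i⟩) ≠ 0) :
    v (Sum.inl ⟨l, topIdx l v⟩) ≠ 0 := by
  obtain ⟨i, hi⟩ := h
  obtain ⟨j, hj, e⟩ := Finset.exists_mem_eq_sup
    (univ.filter fun i => v (Sum.inl ⟨l, i⟩) ≠ 0) ⟨i, by simpa using hi⟩ id
  rw [topIdx, e]
  exact (Finset.mem_filter.1 hj).2

lemma le_topIdx {l : Fin N} {v : Crd N → ℤ} {i} (h : v (Sum.inl ⟨l, i⟩) ≠ 0) :
    i ≤ topIdx l v :=
  Finset.le_sup (f := id) (Finset.mem_filter.2 ⟨Finset.mem_univ _, h⟩)

/-- The model system. -/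
noncomputable def model (m : ℕ) : Idx N → (Crd N → ℤ) → ZMod 2
  | .inl p => fun v => sig p.1 v + sig (lower p) v
  | .inr r => fun v => if v (Sum.inr r) = (m : ℤ) then 1 else 0

lemma sig_flip (hm : 0 < m) {v : Crd N → ℤ} (hv : IsVert m v) (g : Fin N → ZMod 2) (l : Fin N) :
    sig l (flipV g v) = sig l v + g l := by
  have hs : ∀ a : ZMod 2, sg a ≠ 0 := by decide
  have ht : topIdx l (flipV g v) = topIdx l v := by
    simp [topIdx, flipV, hs]
  obtain ⟨i, hi⟩ := hv.pin l
  have hne : v (Sum.inl ⟨l, topIdx l v⟩) ≠ 0 := topIdx_ne_zero ⟨i, fun h0 => by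
    rw [h0, abs_zero] at hi; exact absurd hi (by exact_mod_cast hm.ne)⟩
  simp only [sig, ht, flipV]
  have hg : ∀ a : ZMod 2, a = 0 ∨ a = 1 := by decide
  rcases hg (g l) with h | h <;> rw [h]
  · simp
  · have : sg 1 = -1 := rfl
    rw [this]
    rcases lt_or_gt_of_ne hne with hlt | hlt
    · simp [hlt, hlt.not_gt, CharTwo.add_self_eq_zero]
    · simp [hlt, hlt.not_gt]

lemma model_signed (hm : 0 < m) : Signed (N := N) m (model m) where
  pair g v hv p := by
    simp only [model, sig_flip hm hv]; ring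
  box g v _ r := rfl
  bot v _ r h := by
    simp only [model, h]
    rw [if_neg]
    exact_mod_cast hm.ne
  top v _ r h := by simp [model, h]

/-- The moving coordinate of the model simplex at an equation. -/
def crd : Idx N → Crd N
  | .inl p => .inl ⟨p.1, p.2.succ⟩
  | .inr r => .inr r

/-- Start level in the model simplex. -/
def baseLev (m : ℕ) : Crd N → Fin (m + 1)
  | .inl p => if (p.2 : ℕ) = 0 then ⟨m, by omega⟩ else ⟨0, by omega⟩
  | .inr _ => ⟨m - 1, by omega⟩

/-- Sign bits in the model simplex. -/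
def baseSgn : Crd N → ZMod 2
  | .inl p => ((p.2 : ℕ) : ZMod 2)
  | .inr _ => 0

/-- The model simplex. -/
noncomputable def baseCell (N m : ℕ) : Cell N m :=
  (baseLev m, fun t => crd (enum N t), baseSgn)

lemma crd_injective : Function.Injective (crd (N := N)) := by
  rintro (⟨l, i⟩ | r) (⟨l', i'⟩ | r') h <;> simp only [crd] at h
  · simp only [Sum.inl.injEq, Sigma.mk.injEq] at h
    obtain ⟨rfl, h⟩ := h
    simp only [heq_eq_eq, Fin.succ_inj] at h
    rw [h]
  · exact absurd h (by simp)
  · exact absurd h (by simp)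
  · simpa using h

lemma avoid_base (l : Fin N) (i : Fin ((l : ℕ) + 1)) :
    (∀ t, (baseCell N m).2.1 t ≠ Sum.inl ⟨l, i⟩) ↔ i = 0 := by
  constructor
  · intro h
    by_contra hne
    obtain ⟨j, rfl⟩ := Fin.exists_succ_eq.2 hne
    exact h ((enum N).symm (Sum.inl ⟨l, j⟩)) (by simp [baseCell, crd])
  · rintro rfl t
    simp only [baseCell]
    rcases enum N t with ⟨l', i'⟩ | r <;> simp only [crd, ne_eq, Sum.inl.injEq, reduceCtorEq,
      not_false_eq_true, Sigma.mk.injEq, not_and]
    rintro rfl h
    exact Fin.succ_ne_zero _ (eq_of_heq h)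

lemma valid_base (hm : 0 < m) : Valid (baseCell N m) where
  inj := crd_injective.comp (enum N).injective
  low t := by
    simp only [baseCell]
    rcases enum N t with ⟨l, i⟩ | r <;> simp [crd, baseLev] <;> omega
  pinned k hk := by
    rcases k with ⟨l, i⟩ | r
    · obtain rfl := (avoid_base l i).1 hk
      simp [baseCell, baseLev, baseSgn]
    · exact absurd (by simp [baseCell, crd]) (hk ((enum N).symm (Sum.inr r)))
  moves r := ⟨(enum N).symm (Sum.inr r), by simp [baseCell, crd]⟩
  pos r := rfl
  pin l := ⟨0, (avoid_base l 0).2 rfl, fun i hi => (avoid_base l i).1 hi⟩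

section Step

variable {u : Cell N m} (h : Valid u)
include h

lemma lev_succ_ne {r : ℕ} (hr : r < dimN N) {k : Crd N} (hk : k ≠ u.2.1 ⟨r, hr⟩) :
    lev u (r + 1) k = lev u r k := by
  by_cases he : ∃ j : Fin (dimN N), (j : ℕ) < r ∧ u.2.1 j = k
  · obtain ⟨j, hj, e⟩ := he
    rw [lev_of_exists ⟨j, hj, e⟩, lev_of_exists ⟨j, by omega, e⟩]
  · rw [lev_of_not he, lev_of_not]
    rintro ⟨j, hj, e⟩
    rcases (Nat.lt_succ_iff.1 hj).lt_or_eq with hj | hj
    · exact he ⟨j, hj, e⟩
    · subst hj
      exact hk e.symm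

lemma lev_step {r : ℕ} (hr : r < dimN N) :
    lev u r (u.2.1 ⟨r, hr⟩) = (u.1 (u.2.1 ⟨r, hr⟩) : ℕ) ∧
      lev u (r + 1) (u.2.1 ⟨r, hr⟩) = (u.1 (u.2.1 ⟨r, hr⟩) : ℕ) + 1 := by
  refine ⟨lev_of_not ?_, lev_of_exists ⟨⟨r, hr⟩, by simp, rfl⟩⟩
  rintro ⟨j, hj, e⟩
  have := congrArg Fin.val (h.inj e)
  simp only at this
  omega

lemma vert_succ_ne {r : ℕ} (hr : r < dimN N) {k : Crd N} (hk : k ≠ u.2.1 ⟨r, hr⟩) :
    vert u (r + 1) k = vert u r k := by
  simp [vert, lev_succ_ne h hr hk]

lemma vert_ne_zero_iff (t : ℕ) (k : Crd N) : vert u t k ≠ 0 ↔ lev u t k ≠ 0 := by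
  have hs : ∀ a : ZMod 2, sg a ≠ 0 := by decide
  simp [vert, hs]

lemma sig_vert {t : ℕ} {l : Fin N} {i : Fin ((l : ℕ) + 1)} (h0 : lev u t (Sum.inl ⟨l, i⟩) ≠ 0)
    (h1 : ∀ j, lev u t (Sum.inl ⟨l, j⟩) ≠ 0 → j ≤ i) :
    sig l (vert u t) = u.2.2 (Sum.inl ⟨l, i⟩) := by
  have e := topIdx_eq (v := vert u t) ((vert_ne_zero_iff h t _).2 h0)
    (fun j hj => h1 j ((vert_ne_zero_iff h t _).1 hj))
  rw [sig, e, vert]
  have hg : ∀ a : ZMod 2, a = 0 ∨ a = 1 := by decide
  have hpos : (0 : ℤ) < (lev u t (Sum.inl ⟨l, i⟩) : ℤ) := by exact_mod_cast Nat.pos_of_ne_zero h0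
  rcases hg (u.2.2 (Sum.inl ⟨l, i⟩)) with hs | hs <;> rw [hs]
  · simp [hpos.le]
  · rw [show sg 1 = -1 from rfl, if_pos (by linarith)]

/-- If the sign bit of a block changes at step `r`, the moving coordinate is in that block, starts
at level `0`, lies above every nonzero coordinate of the block and differs in sign from the top
one. -/
lemma of_sig_change {r : ℕ} (hr : r < dimN N) {l : Fin N}
    (hne : sig l (vert u r) ≠ sig l (vert u (r + 1))) :
    ∃ i, u.2.1 ⟨r, hr⟩ = Sum.inl ⟨l, i⟩ ∧ (u.1 (Sum.inl ⟨l, i⟩) : ℕ) = 0 ∧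
      topIdx l (vert u r) < i ∧
      u.2.2 (Sum.inl ⟨l, topIdx l (vert u r)⟩) ≠ u.2.2 (Sum.inl ⟨l, i⟩) := by
  set T := topIdx l (vert u r) with hT
  obtain ⟨p, hp, -⟩ := h.pin l
  have hmp : 0 < m := lt_of_le_of_lt (Nat.zero_le _) (h.low ⟨r, hr⟩)
  have hp0 : lev u r (Sum.inl ⟨l, p⟩) ≠ 0 := by
    rw [lev_of_not fun ⟨j, _, e⟩ => hp j e, (h.pinned _ hp).1]
    omega
  have hT0 : lev u r (Sum.inl ⟨l, T⟩) ≠ 0 :=
    (vert_ne_zero_iff h r _).1 (topIdx_ne_zero ⟨p, (vert_ne_zero_iff h r _).2 hp0⟩)
  have hTmax : ∀ j, lev u r (Sum.inl ⟨l, j⟩) ≠ 0 → j ≤ T := fun j hj =>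
    le_topIdx ((vert_ne_zero_iff h r _).2 hj)
  have hmono : ∀ k, lev u r k ≤ lev u (r + 1) k := by
    intro k
    by_cases hk : k = u.2.1 ⟨r, hr⟩
    · subst hk
      rw [(lev_step h hr).1, (lev_step h hr).2]
      omega
    · rw [lev_succ_ne h hr hk]
  have hT1 : lev u (r + 1) (Sum.inl ⟨l, T⟩) ≠ 0 := by
    have := hmono (Sum.inl ⟨l, T⟩); omega
  by_cases hbad : ∀ j, lev u (r + 1) (Sum.inl ⟨l, j⟩) ≠ 0 → j ≤ T
  · exact absurd (by rw [sig_vert h hT0 hTmax, sig_vert h hT1 hbad]) hne
  · push Not at hbad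
    obtain ⟨i, hi, hlt⟩ := hbad
    have hi0 : lev u r (Sum.inl ⟨l, i⟩) = 0 := by
      by_contra hc
      exact absurd (hTmax i hc) (not_le.2 hlt)
    have hk : (Sum.inl ⟨l, i⟩ : Crd N) = u.2.1 ⟨r, hr⟩ := by
      by_contra hc
      exact hi (by rw [lev_succ_ne h hr hc, hi0])
    have hall : ∀ j, lev u (r + 1) (Sum.inl ⟨l, j⟩) ≠ 0 → j ≤ i := by
      intro j hj
      by_cases hji : j = i
      · exact hji.le
      · have : (Sum.inl ⟨l, j⟩ : Crd N) ≠ u.2.1 ⟨r, hr⟩ := by rw [← hk]; simp [hji]
        rw [lev_succ_ne h hr this] at hj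
        exact (hTmax j hj).trans hlt.le
    refine ⟨i, hk.symm, ?_, hlt, fun he => hne ?_⟩
    · rw [hk] at hi0 ⊢
      rwa [(lev_step h hr).1] at hi0
    · rw [sig_vert h hT0 hTmax, sig_vert h hi hall, he]

end Step

/-- A simplex counted for the model is the model simplex. -/
lemma eq_base (hm : 0 < m) {u : Cell N m} (h : Valid u)
    (hp : prodE (toSeq (model m)) (dimN N) (vert u) ≠ 0) : u = baseCell N m := by
  have hne : ∀ e : Idx N, model m e (vert u ((enum N).symm e : ℕ)) ≠
      model m e (vert u (((enum N).symm e : ℕ) + 1)) := by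
    intro e heq
    refine hp (prodE_eq_zero _ _ ((enum N).symm e).isLt _ _ ?_)
    simpa [toSeq] using heq
  have hbox : ∀ r : Fin (N - 1), u.2.1 ((enum N).symm (Sum.inr r)) = Sum.inr r ∧
      (u.1 (Sum.inr r) : ℕ) = m - 1 := by
    intro r
    set t := (enum N).symm (Sum.inr r) with ht
    have hs := hne (Sum.inr r)
    rw [← ht] at hs
    have hk : u.2.1 t = Sum.inr r := by
      by_contra hc
      apply hs
      simp only [model]
      rw [vert_succ_ne h t.isLt (k := Sum.inr r) (Ne.symm hc)]
    refine ⟨hk, ?_⟩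
    obtain ⟨h1, h2⟩ := lev_step h t.isLt
    have hlow := h.low t
    simp only [Fin.eta, hk] at h1 h2 hlow
    by_contra hc
    apply hs
    simp only [model, vert, h.pos r, sg_zero, one_mul, h1, h2]
    rw [if_neg, if_neg]
    · exact_mod_cast (show (u.1 (Sum.inr r) : ℕ) + 1 ≠ m by omega)
    · exact_mod_cast (show (u.1 (Sum.inr r) : ℕ) ≠ m by omega)
  -- every pair moves a coordinate of one of its two blocks
  have hpair : ∀ p : Pair N, ∃ l, (l = p.1 ∨ l = lower p) ∧
      sig l (vert u ((enum N).symm (Sum.inl p) : ℕ)) ≠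
        sig l (vert u (((enum N).symm (Sum.inl p) : ℕ) + 1)) := by
    intro p
    by_cases h1 : sig p.1 (vert u ((enum N).symm (Sum.inl p) : ℕ)) =
        sig p.1 (vert u (((enum N).symm (Sum.inl p) : ℕ) + 1))
    · refine ⟨lower p, Or.inr rfl, fun h2 => hne (Sum.inl p) ?_⟩
      simp only [model, h1, h2]
    · exact ⟨p.1, Or.inl rfl, h1⟩
  choose τ hτ hτs using hpair
  choose c hc hc0 hclt hcs using fun p => of_sig_change h ((enum N).symm (Sum.inl p)).isLt (hτs p)
  simp only [Fin.eta] at hc
  choose pin hpin hpinu using h.pin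
  have hcpin : ∀ p, c p ≠ pin (τ p) := fun p he => hpin (τ p) _ (by rw [hc p, he])
  have hcard : ∀ b : Fin N, (univ.filter fun p : Pair N => τ p = b).card ≤ (b : ℕ) := by
    intro b
    have h1 : ((univ.filter fun p : Pair N => τ p = b).image
        fun p => (Sum.inl ⟨τ p, c p⟩ : Crd N)) ⊆
        ((univ : Finset (Fin ((b : ℕ) + 1))).erase (pin b)).image
          fun i => (Sum.inl ⟨b, i⟩ : Crd N) := by
      intro x hx
      obtain ⟨p, hp, rfl⟩ := Finset.mem_image.1 hx
      have := hcpin p
      obtain rfl := (Finset.mem_filter.1 hp).2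
      exact Finset.mem_image.2 ⟨c p, Finset.mem_erase.2 ⟨this, Finset.mem_univ _⟩, rfl⟩
    have h2 := Finset.card_le_card h1
    rw [Finset.card_image_of_injective] at h2
    · refine h2.trans (Finset.card_image_le.trans ?_)
      simp
    · intro p p' he
      have := h.inj ((hc p).trans (he.trans (hc p').symm))
      simpa using this
  have hmain : ∀ (b : ℕ) (p : Pair N), (p.2 : ℕ) = b → τ p = p.1 := by
    intro b
    induction b using Nat.strong_induction_on with
    | _ b ih =>
      intro p hb
      by_contra hc'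
      have hl : τ p = lower p := (hτ p).resolve_left hc'
      set B : Fin N := lower p with hB
      have hsub : insert p ((univ : Finset (Fin (B : ℕ))).image fun i => (⟨B, i⟩ : Pair N)) ⊆
          univ.filter fun q : Pair N => τ q = B := by
        intro q hq
        refine Finset.mem_filter.2 ⟨Finset.mem_univ _, ?_⟩
        rcases Finset.mem_insert.1 hq with rfl | hq
        · exact hl
        · obtain ⟨i, -, rfl⟩ := Finset.mem_image.1 hq
          exact ih i (by rw [← hb]; exact i.isLt) ⟨B, i⟩ rfl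
      have hnot : p ∉ (univ : Finset (Fin (B : ℕ))).image fun i => (⟨B, i⟩ : Pair N) := by
        intro hq
        obtain ⟨i, -, e⟩ := Finset.mem_image.1 hq
        have e1 : B = p.1 := congrArg Sigma.fst e
        have := congrArg Fin.val e1
        simp only [hB, lower] at this
        have := p.2.isLt
        omega
      have := (Finset.card_le_card hsub).trans (hcard B)
      rw [Finset.card_insert_of_notMem hnot, Finset.card_image_of_injective _
        (fun i j e => by simpa using e), Finset.card_fin] at this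
      omega
  have hfst : ∀ p, τ p = p.1 := fun p => hmain _ p rfl
  -- within a block the coordinates appear in increasing order above the pinned one
  have hblock : ∀ (l : Fin N) (i : Fin (l : ℕ)), ∃ j : Fin ((l : ℕ) + 1),
      u.2.1 ((enum N).symm (Sum.inl ⟨l, i⟩)) = Sum.inl ⟨l, j⟩ ∧
      (u.1 (Sum.inl ⟨l, j⟩) : ℕ) = 0 ∧
      topIdx l (vert u ((enum N).symm (Sum.inl (⟨l, i⟩ : Pair N)) : ℕ)) < j ∧
      u.2.2 (Sum.inl ⟨l, topIdx l (vert u ((enum N).symm (Sum.inl (⟨l, i⟩ : Pair N)) : ℕ))⟩) ≠
        u.2.2 (Sum.inl ⟨l, j⟩) := by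
    intro l i
    obtain ⟨j, h1, h2, h3, h4⟩ := of_sig_change h ((enum N).symm (Sum.inl ⟨l, i⟩)).isLt
      (hfst ⟨l, i⟩ ▸ hτs ⟨l, i⟩)
    exact ⟨j, by simpa using h1, h2, h3, h4⟩
  choose g hg hg0 hglt hgs using hblock
  have hgid : ∀ l : Fin N, pin l = 0 ∧ ∀ i, g l i = i.succ := by
    intro l
    let G : Fin ((l : ℕ) + 1) → Fin ((l : ℕ) + 1) := Fin.cases (pin l) (g l)
    have hG : StrictMono G := by
      intro a b hab
      obtain ⟨j, rfl⟩ := Fin.exists_succ_eq.2 (Fin.ne_zero_of_lt hab)
      refine lt_of_le_of_lt (le_topIdx ((vert_ne_zero_iff h _ _).2 ?_)) (hglt l j)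
      induction a using Fin.cases with
      | zero =>
          simp only [G, Fin.cases_zero]
          rw [lev_of_not fun ⟨q, _, e⟩ => hpin l q e, (h.pinned _ (hpin l)).1]
          omega
      | succ a =>
          simp only [G, Fin.cases_succ]
          rw [lev_of_exists ⟨(enum N).symm (Sum.inl ⟨l, a⟩),
            enum_symm_lt (Fin.succ_lt_succ_iff.1 hab), hg l a⟩]
          omega
    have hid : G = id := by
      have hs : Function.Surjective G := Finite.surjective_of_injective hG.injective
      exact (StrictMono.range_inj hG strictMono_id).1 (by rw [hs.range_eq, Set.range_id])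
    refine ⟨?_, fun i => ?_⟩
    · simpa [G] using congrFun hid 0
    · simpa [G] using congrFun hid i.succ
  have hord : u.2.1 = fun t => crd (enum N t) := by
    funext t
    obtain ⟨e, rfl⟩ := (enum N).symm.surjective t
    rw [Equiv.apply_symm_apply]
    rcases e with ⟨l, i⟩ | r
    · rw [hg, (hgid l).2]; rfl
    · exact (hbox r).1
  have hsgn : ∀ (b : ℕ) (l : Fin N) (i : Fin ((l : ℕ) + 1)), (i : ℕ) = b →
      u.2.2 (Sum.inl ⟨l, i⟩) = ((i : ℕ) : ZMod 2) := by
    intro b
    induction b with
    | zero =>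
        intro l i hi
        obtain rfl : i = 0 := Fin.ext hi
        have := (h.pinned _ (hpin l)).2
        rw [(hgid l).1] at this
        simpa using this
    | succ b ih =>
        intro l i hi
        obtain ⟨j, rfl⟩ := Fin.exists_succ_eq.2 (show i ≠ 0 from fun e => by simp [e] at hi)
        have hjb : (j : ℕ) = b := by simpa using hi
        have hT : topIdx l (vert u ((enum N).symm (Sum.inl (⟨l, j⟩ : Pair N)) : ℕ))
            = j.castSucc := by
          refine le_antisymm ?_ (le_topIdx ((vert_ne_zero_iff h _ _).2 ?_))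
          · have h1 := hglt l j
            rw [(hgid l).2] at h1
            exact Fin.le_castSucc_iff.2 h1
          · induction hz : j.castSucc using Fin.cases with
            | zero =>
                rw [← (hgid l).1, lev_of_not fun ⟨q, _, e⟩ => hpin l q e, (h.pinned _ (hpin l)).1]
                omega
            | succ a =>
                have ha : a < j := by
                  have := congrArg Fin.val hz
                  simp only [Fin.val_castSucc, Fin.val_succ] at this
                  exact Fin.lt_def.2 (by omega)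
                rw [lev_of_exists ⟨(enum N).symm (Sum.inl ⟨l, a⟩), enum_symm_lt ha,
                  by rw [hg l a, (hgid l).2]⟩]
                omega
        have h4 := hgs l j
        rw [hT, (hgid l).2, ih l j.castSucc (by simpa using hjb)] at h4
        have key : ∀ a c : ZMod 2, a ≠ c → c = a + 1 := by decide
        simpa using key _ _ h4
  refine Prod.ext ?_ (Prod.ext hord ?_) <;> funext k
  · apply Fin.ext
    rcases k with ⟨l, i⟩ | r
    · induction i using Fin.cases with
      | zero =>
          rw [← (hgid l).1, (h.pinned _ (hpin l)).1]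
          simp [baseCell, baseLev, (hgid l).1]
      | succ i =>
          rw [← (hgid l).2 i, hg0]
          simp [baseCell, baseLev, (hgid l).2 i]
    · rw [(hbox r).2]; rfl
  · rcases k with ⟨l, i⟩ | r
    · exact hsgn _ l i rfl
    · exact h.pos r

lemma prod_base (hm : 0 < m) :
    prodE (toSeq (model m)) (dimN N) (vert (baseCell N m)) = 1 := by
  have h := valid_base (N := N) hm
  refine prodE_eq_one _ _ _ fun r hr => ?_
  obtain ⟨e, he⟩ := (enum N).symm.surjective ⟨r, hr⟩
  have hen : enum N ⟨r, hr⟩ = e := by rw [← he, Equiv.apply_symm_apply]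
  have hk : (baseCell N m).2.1 ⟨r, hr⟩ = crd e := by simp [baseCell, hen]
  obtain ⟨h1, h2⟩ := lev_step h hr
  simp only [hk] at h1 h2
  simp only [toSeq, dif_pos hr, hen]
  rcases e with ⟨l, i⟩ | q
  · have hlow : lower (⟨l, i⟩ : Pair N) ≠ l := fun e => by
      have := congrArg Fin.val e
      simp only [lower] at this
      have := i.isLt
      omega
    have hsame : sig (lower (⟨l, i⟩ : Pair N)) (vert (baseCell N m) r) =
        sig (lower (⟨l, i⟩ : Pair N)) (vert (baseCell N m) (r + 1)) := by
      by_contra hne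
      obtain ⟨j, hj, -⟩ := of_sig_change h hr hne
      rw [hk] at hj
      simp only [crd, Sum.inl.injEq, Sigma.mk.injEq] at hj
      exact hlow hj.1.symm
    have hlev : ∀ j : Fin ((l : ℕ) + 1),
        lev (baseCell N m) r (Sum.inl ⟨l, j⟩) ≠ 0 ↔ j ≤ i.castSucc := by
      intro j
      induction j using Fin.cases with
      | zero =>
          rw [lev_of_not fun ⟨q, _, e⟩ => (avoid_base l 0).2 rfl q e]
          simp [baseCell, baseLev]
          omega
      | succ j =>
          have hq : ((baseCell N m).1 (Sum.inl ⟨l, j.succ⟩) : ℕ) = 0 := by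
            simp [baseCell, baseLev]
          have hw : ∀ q, (baseCell N m).2.1 q = Sum.inl ⟨l, j.succ⟩ ↔
              q = (enum N).symm (Sum.inl ⟨l, j⟩) := fun q => by
            rw [← (crd_injective.comp (enum N).injective).eq_iff (a := q)]
            simp [baseCell, crd]
          have hi : ((enum N).symm (Sum.inl (⟨l, i⟩ : Pair N)) : ℕ) = r := by rw [he]
          rw [Fin.succ_le_castSucc_iff]
          constructor
          · intro hne
            by_contra hge
            apply hne
            rw [lev_of_not, hq]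
            rintro ⟨q, hq', e⟩
            rw [(hw q).1 e] at hq'
            rcases (not_lt.1 hge).lt_or_eq with hlt | heq
            · have := Fin.lt_def.1 (enum_symm_lt hlt); omega
            · rw [← heq] at hq'; omega
          · intro hlt
            rw [lev_of_exists ⟨_, by have := Fin.lt_def.1 (enum_symm_lt hlt); omega,
              (hw _).2 rfl⟩]
            omega
    have hs0 := sig_vert h ((hlev i.castSucc).2 le_rfl) fun j hj => (hlev j).1 hj
    have hs1 : sig l (vert (baseCell N m) (r + 1)) = (baseCell N m).2.2 (Sum.inl ⟨l, i.succ⟩) := by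
      refine sig_vert h ?_ fun j hj => ?_
      · simp only [crd] at h2; omega
      · by_cases hji : j = i.succ
        · exact hji.le
        · have : (Sum.inl ⟨l, j⟩ : Crd N) ≠ (baseCell N m).2.1 ⟨r, hr⟩ := by
            simp [hk, crd, hji]
          rw [lev_succ_ne h hr this] at hj
          exact ((hlev j).1 hj).trans (Fin.castSucc_lt_succ).le
    simp only [model]
    rw [hs0, hs1, hsame]
    simp only [baseCell, baseSgn, Fin.val_castSucc, Fin.val_succ, Nat.cast_add, Nat.cast_one]
    have key : ∀ a b : ZMod 2, a + b + (a + 1 + b) = 1 := by decide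
    exact key _ _
  · have hm1 : ((baseCell N m).1 (Sum.inr q) : ℕ) = m - 1 := rfl
    simp only [crd, hm1] at h1 h2
    simp only [model, vert, h.pos q, sg_zero, one_mul, h1, h2]
    rw [if_neg, if_pos, zero_add]
    · exact_mod_cast (show m - 1 + 1 = m by omega)
    · exact_mod_cast (show m - 1 ≠ m by omega)

lemma total_model (hm : 0 < m) : total (N := N) m (model m) = 1 := by
  rw [total, Finset.sum_eq_single (baseCell N m)]
  · exact prod_base hm
  · intro u hu hne
    by_contra hc
    exact hne (eq_base hm (mem_cells.1 hu) hc)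
  · exact fun hc => absurd (mem_cells.2 (valid_base hm)) hc

/-- Some simplex has every bit change along its edge. -/
theorem exists_cell (hm : 0 < m) {f : Idx N → (Crd N → ℤ) → ZMod 2} (hf : Signed m f) :
    ∃ u : Cell N m, Valid u ∧ ∀ e : Idx N, ∃ s t, s ≤ dimN N ∧ t ≤ dimN N ∧
      f e (vert u s) = 0 ∧ f e (vert u t) = 1 := by
  have h1 : total m f = 1 := (total_eq hf (model_signed hm)).trans (total_model hm)
  obtain ⟨u, hu, hne⟩ := Finset.exists_ne_zero_of_sum_ne_zero (h1.trans_ne one_ne_zero)
  refine ⟨u, mem_cells.1 hu, fun e => ?_⟩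
  set r := (enum N).symm e with hr
  have hd : f e (vert u r) ≠ f e (vert u ((r : ℕ) + 1)) := fun he =>
    hne (prodE_eq_zero _ r r.isLt _ _ (by simpa [toSeq, hr] using he))
  have key : ∀ a b : ZMod 2, a ≠ b → a = 0 ∧ b = 1 ∨ a = 1 ∧ b = 0 := by decide
  rcases key _ _ hd with ⟨h2, h3⟩ | ⟨h2, h3⟩
  · exact ⟨r, r + 1, r.isLt.le, r.isLt, h2, h3⟩
  · exact ⟨r + 1, r, r.isLt, r.isLt.le, h3, h2⟩

end Vale.Agent.P371.Lift
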