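import Mathlib
import Vale.Agent.P371.Lift.Parity

/-!
P371 (lifting lemma): a continuous system with the symmetry of the pair entries and the
Poincare-Miranda boundary signs has a common zero on the product of the cube boundaries and the
unit cube.
-/

open Finset

namespace Vale.Agent.P371.Lift

variable {N : ℕ}

/-- The parameter space. -/
def paramSet (N : ℕ) : Set (Crd N → ℝ) :=
  {p | (∀ q, |p (.inl q)| ≤ 1) ∧ (∀ l : Fin N, ∃ i, |p (.inl ⟨l, i⟩)| = 1) ∧
    ∀ r, p (.inr r) ∈ Set.Icc (0 : ℝ) 1}

/-- Sign change of whole blocks of a parameter. -/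
def flipR (g : Fin N → ZMod 2) (p : Crd N → ℝ) : Crd N → ℝ := fun k =>
  match k with
  | .inl q => (sg (g q.1) : ℝ) * p (.inl q)
  | .inr r => p (.inr r)

lemma isCompact_paramSet (N : ℕ) : IsCompact (paramSet N) := by
  have hc : IsClosed (paramSet N) := by
    simp only [paramSet, Set.ofPred_and, Set.ofPred_forall, Set.ofPred_exists, Set.mem_Icc]
    refine IsClosed.inter (isClosed_iInter fun q => ?_) (IsClosed.inter (isClosed_iInter fun l => ?_)
      (isClosed_iInter fun r => ?_))
    · exact isClosed_le (continuous_apply _).abs continuous_const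
    · exact isClosed_iUnion_of_finite fun i => isClosed_eq (continuous_apply _).abs continuous_const
    · exact (isClosed_le continuous_const (continuous_apply _)).inter
        (isClosed_le (continuous_apply _) continuous_const)
  refine (isCompact_univ_pi fun _ : Crd N => isCompact_Icc (a := (-1 : ℝ)) (b := 1)).of_isClosed_subset hc
    fun p hp k _ => ?_
  rcases k with q | r
  · exact abs_le.1 (hp.1 q)
  · exact ⟨by linarith [(hp.2.2 r).1], (hp.2.2 r).2⟩

variable {m : ℕ}

/-- The parameter at a lattice point. -/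
noncomputable def toParam (m : ℕ) (v : Crd N → ℤ) : Crd N → ℝ := fun k => (v k : ℝ) / m

lemma toParam_mem (hm : 0 < m) {v : Crd N → ℤ} (hv : IsVert m v) :
    toParam m v ∈ paramSet N := by
  have h0 : (0 : ℝ) < m := by exact_mod_cast hm
  refine ⟨fun q => ?_, fun l => ?_, fun r => ⟨?_, ?_⟩⟩ <;>
    simp only [toParam, abs_div, abs_of_pos h0]
  · rw [div_le_one h0]
    exact_mod_cast hv.le q
  · obtain ⟨i, hi⟩ := hv.pin l
    exact ⟨i, by rw [div_eq_one_iff_eq h0.ne']; exact_mod_cast hi⟩
  · exact div_nonneg (by exact_mod_cast (hv.mem r).1) h0.le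
  · rw [div_le_one h0]
    exact_mod_cast (hv.mem r).2

lemma toParam_flip (g : Fin N → ZMod 2) (v : Crd N → ℤ) :
    toParam m (flipV g v) = flipR g (toParam m v) := by
  funext k
  cases k <;> simp [toParam, flipV, flipR, mul_div_assoc]

lemma dist_toParam_vert (hm : 0 < m) {u : Cell N m} (s t : ℕ) :
    dist (toParam m (vert u s)) (toParam m (vert u t)) ≤ 1 / m := by
  have h0 : (0 : ℝ) < m := by exact_mod_cast hm
  rw [dist_pi_le_iff (by positivity)]
  intro k
  rw [Real.dist_eq, toParam, toParam, ← sub_div, abs_div, abs_of_pos h0]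
  refine div_le_div_of_nonneg_right ?_ h0.le
  have hd : |(lev u s k : ℤ) - (lev u t k : ℤ)| ≤ 1 := by
    simp only [lev]
    split_ifs <;> simp
  have : |vert u s k - vert u t k| ≤ 1 := by
    simp only [vert]
    rw [← mul_sub, abs_mul, abs_sg, one_mul]
    exact hd
  exact_mod_cast this

/-- A common zero. -/
theorem exists_zero (h : Idx N → (Crd N → ℝ) → ℝ)
    (hc : ∀ e, ContinuousOn (h e) (paramSet N))
    (hpair : ∀ g, ∀ p ∈ paramSet N, ∀ q : Pair N,
      h (.inl q) (flipR g p) = (sg (g q.1 + g (lower q)) : ℝ) * h (.inl q) p)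
    (hbox : ∀ g, ∀ p ∈ paramSet N, ∀ r, h (.inr r) (flipR g p) = h (.inr r) p)
    (hbot : ∀ p ∈ paramSet N, ∀ r, p (.inr r) = 0 → 0 ≤ h (.inr r) p)
    (htop : ∀ p ∈ paramSet N, ∀ r, p (.inr r) = 1 → h (.inr r) p ≤ 0) :
    ∃ p ∈ paramSet N, ∀ e, h e p = 0 := by
  by_contra hno
  push Not at hno
  have hne : (paramSet N).Nonempty :=
    ⟨fun k => Sum.elim (fun _ => 1) (fun _ => 0) k,
      fun _ => by simp, fun l => ⟨0, by simp⟩, fun _ => by simp⟩
  obtain ⟨p0, hp0, hmin⟩ := (isCompact_paramSet N).exists_isMinOn hne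
    (continuousOn_finsetSum univ fun e _ => (hc e).abs)
  have hη : 0 < ∑ e, |h e p0| := by
    obtain ⟨e, he⟩ := hno p0 hp0
    exact lt_of_lt_of_le (abs_pos.2 he)
      (Finset.single_le_sum (fun e _ => abs_nonneg (h e p0)) (Finset.mem_univ e))
  set η := ∑ e, |h e p0| with hηdef
  set ε := η / ((Fintype.card (Idx N) : ℝ) + 1) with hεdef
  have hε : 0 < ε := by positivity
  have hu : ∀ e, ∃ δ > 0, ∀ p ∈ paramSet N, ∀ p' ∈ paramSet N, dist p p' < δ →
      |h e p - h e p'| < ε := fun e => by
    have := Metric.uniformContinuousOn_iff.1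
      ((isCompact_paramSet N).uniformContinuousOn_of_continuous (hc e)) ε hε
    simpa [Real.dist_eq] using this
  choose δ hδ0 hδ using hu
  obtain ⟨δ0, hδ00, hδ0le⟩ : ∃ δ0 > 0, ∀ e, δ0 ≤ δ e := by
    rcases isEmpty_or_nonempty (Idx N) with hi | hi
    · exact ⟨1, one_pos, fun e => (IsEmpty.false e).elim⟩
    · exact ⟨(univ.image δ).min' (by simp),
        by
          rw [gt_iff_lt, Finset.lt_min'_iff]
          intro y hy
          obtain ⟨e, -, rfl⟩ := Finset.mem_image.1 hy
          exact hδ0 e,
        fun e => Finset.min'_le _ _ (by simp)⟩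
  obtain ⟨m', hm'⟩ := exists_nat_one_div_lt hδ00
  set m := m' + 1 with hmdef
  have hm : 0 < m := by omega
  have hmδ : (1 : ℝ) / m < δ0 := by rw [hmdef]; push_cast; exact hm'
  -- the bits
  classical
  let f : Idx N → (Crd N → ℤ) → ZMod 2 := fun e v =>
    match e with
    | .inl q => if h (.inl q) (toParam m v) < 0 then 1
        else if 0 < h (.inl q) (toParam m v) then 0 else sig q.1 v + sig (lower q) v
    | .inr r => if v (.inr r) = 0 then 0 else if v (.inr r) = (m : ℤ) then 1
        else if h (.inr r) (toParam m v) < 0 then 1 else 0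
  have hf : Signed m f := by
    refine ⟨fun g v hv q => ?_, fun g v hv r => ?_, fun v _ r h0 => by simp [f, h0],
      fun v _ r h0 => ?_⟩
    · simp only [f, toParam_flip, hpair g _ (toParam_mem hm hv), sig_flip hm hv]
      have hcases : ∀ a : ZMod 2, a = 0 ∨ a = 1 := by decide
      rcases hcases (g q.1 + g (lower q)) with hg | hg <;> rw [hg]
      · simp only [sg_zero, Int.cast_one, one_mul, add_zero]
        split_ifs <;> try rfl
        linear_combination hg
      · rw [show sg 1 = -1 from rfl]
        push_cast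
        rw [neg_one_mul]
        rcases lt_trichotomy (h (.inl q) (toParam m v)) 0 with hx | hx | hx
        · simp [hx, hx.not_gt, CharTwo.add_self_eq_zero]
        · simp only [hx, neg_zero, lt_self_iff_false, if_false]
          linear_combination hg
        · simp [hx, hx.not_gt]
    · simp only [f, toParam_flip, hbox g _ (toParam_mem hm hv)]
      rfl
    · simp only [f]
      rw [if_neg (by rw [h0]; exact_mod_cast hm.ne'), if_pos h0]
  obtain ⟨u, hu, hch⟩ := exists_cell hm hf
  have hsmall : ∀ e, |h e (toParam m (vert u 0))| < ε := by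
    intro e
    obtain ⟨s, t, -, -, h0, h1⟩ := hch e
    have hclose : ∀ x, |h e (toParam m (vert u 0)) - h e (toParam m (vert u x))| < ε := fun x =>
      hδ e _ (toParam_mem hm (isVert_vert hu 0)) _ (toParam_mem hm (isVert_vert hu x))
        (((dist_toParam_vert hm 0 x).trans_lt hmδ).trans_le (hδ0le e))
    have h0m : (0 : ℝ) < m := by exact_mod_cast hm
    have hs : 0 ≤ h e (toParam m (vert u s)) := by
      rcases e with q | r <;> simp only [f] at h0
      · by_contra hlt
        rw [if_pos (not_le.1 hlt)] at h0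
        exact one_ne_zero h0
      · split_ifs at h0 with ha hb hc'
        · exact hbot _ (toParam_mem hm (isVert_vert hu s)) r (by simp [toParam, ha])
        · exact absurd h0 one_ne_zero
        · exact absurd h0 one_ne_zero
        · exact not_lt.1 hc'
    have ht : h e (toParam m (vert u t)) ≤ 0 := by
      rcases e with q | r <;> simp only [f] at h1
      · by_contra hlt
        rw [if_neg (not_lt.2 (not_le.1 hlt).le), if_pos (not_le.1 hlt)] at h1
        exact zero_ne_one h1
      · split_ifs at h1 with ha hb hc'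
        · exact absurd h1 zero_ne_one
        · exact htop _ (toParam_mem hm (isVert_vert hu t)) r
            (by simp [toParam, hb, h0m.ne'])
        · exact hc'.le
        · exact absurd h1 zero_ne_one
    have h2 := abs_lt.1 (hclose s)
    have h3 := abs_lt.1 (hclose t)
    exact abs_lt.2 ⟨by linarith [h2.1], by linarith [h3.2]⟩
  have hge : η ≤ ∑ e, |h e (toParam m (vert u 0))| :=
    hmin (toParam_mem hm (isVert_vert hu 0))
  have hlt : ∑ e, |h e (toParam m (vert u 0))| ≤ (Fintype.card (Idx N) : ℝ) * ε := by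
    have := Finset.sum_le_sum fun e (_ : e ∈ (univ : Finset (Idx N))) => (hsmall e).le
    simpa using this
  have : (Fintype.card (Idx N) : ℝ) * ε < η := by
    have e1 : ε * ((Fintype.card (Idx N) : ℝ) + 1) = η := by
      rw [hεdef]; field_simp
    linarith
  linarith

end Vale.Agent.P371.Lift
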