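import Mathlib

/-!
P371 (lifting lemma): the data the lifting lemma takes.
-/

open Set MeasureTheory

namespace Vale.Agent.P371.Lift

variable {N m : ℕ}

/-- A combination of a family of vector-valued functions. -/
def comb (c : Fin N → ℝ) (f : Fin N → ℝ → Fin m → ℝ) (x : ℝ) (μ : Fin m) : ℝ :=
  ∑ i, c i * f i x μ

/-- The hypotheses: a continuous positive semidefinite potential on `[a, b]` and `C¹` functions
whose form with boundary terms is at most `-k j ^ 2` on the span of the first `j + 1` of them. -/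
structure LiftData (a b : ℝ) (W : ℝ → Matrix (Fin m) (Fin m) ℝ)
    (ψ dψ : Fin N → ℝ → Fin m → ℝ) (k : Fin N → ℝ) : Prop where
  le : a ≤ b
  potCont : ∀ μ μ', ContinuousOn (fun x => W x μ μ') (Icc a b)
  potPos : ∀ x ∈ Icc a b, (W x).PosSemidef
  deriv : ∀ j, ∀ x ∈ Icc a b, HasDerivWithinAt (ψ j) (dψ j x) (Icc a b) x
  derivCont : ∀ j, ContinuousOn (dψ j) (Icc a b)
  kPos : ∀ j, 0 < k j
  mass : ∃ ν > 0, ∀ c : Fin N → ℝ,
    ν * ∑ i, c i ^ 2 ≤ ∫ x in a..b, ∑ μ, comb c ψ x μ ^ 2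
  form : ∀ (j : Fin N) (c : Fin N → ℝ), (∀ i, j < i → c i = 0) →
    (∫ x in a..b, ((∑ μ, comb c dψ x μ ^ 2) -
        ∑ μ, ∑ μ', comb c ψ x μ * W x μ μ' * comb c ψ x μ')) +
      k j ^ 2 * (∫ x in a..b, ∑ μ, comb c ψ x μ ^ 2) +
      k j * (∑ μ, comb c ψ a μ ^ 2 + ∑ μ, comb c ψ b μ ^ 2) ≤ 0

end Vale.Agent.P371.Lift
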