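import Mathlib

/-!
P371 (lifting lemma): the regularized polar factor `Z (ZᵀZ + δ)^{-1/2}` and its properties.
-/

open Matrix
open scoped MatrixOrder

namespace Vale.Agent.P371.Lift

variable {N m : ℕ}

/-- The regularized Gram matrix. -/
def gram (δ : ℝ) (Z : Matrix (Fin N) (Fin m) ℝ) : Matrix (Fin m) (Fin m) ℝ := Zᵀ * Z + δ • 1

lemma posDef_gram {δ : ℝ} (hδ : 0 < δ) (Z : Matrix (Fin N) (Fin m) ℝ) : (gram δ Z).PosDef := by
  have h1 : (Zᵀ * Z).PosSemidef := by
    simpa [conjTranspose_eq_transpose_of_trivial] using posSemidef_conjTranspose_mul_self Z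
  exact Matrix.PosDef.posSemidef_add h1 (Matrix.PosDef.one.smul hδ)

/-- The inverse square root of the regularized Gram matrix. -/
noncomputable def gramRoot (δ : ℝ) (Z : Matrix (Fin N) (Fin m) ℝ) : Matrix (Fin m) (Fin m) ℝ :=
  (CFC.sqrt (gram δ Z))⁻¹

/-- The regularized polar factor. -/
noncomputable def polar (δ : ℝ) (Z : Matrix (Fin N) (Fin m) ℝ) : Matrix (Fin N) (Fin m) ℝ :=
  Z * gramRoot δ Z

lemma sqrt_gram {δ : ℝ} (hδ : 0 < δ) (Z : Matrix (Fin N) (Fin m) ℝ) :
    CFC.sqrt (gram δ Z) * CFC.sqrt (gram δ Z) = gram δ Z :=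
  CFC.sqrt_mul_sqrt_self _ (posDef_gram hδ Z).posSemidef.nonneg

lemma det_sqrt_gram {δ : ℝ} (hδ : 0 < δ) (Z : Matrix (Fin N) (Fin m) ℝ) :
    (CFC.sqrt (gram δ Z)).det ≠ 0 := by
  intro h
  have := congrArg Matrix.det (sqrt_gram hδ Z)
  rw [det_mul, h, zero_mul] at this
  exact (posDef_gram hδ Z).det_pos.ne' this.symm

lemma gramRoot_transpose (δ : ℝ) (Z : Matrix (Fin N) (Fin m) ℝ) :
    (gramRoot δ Z)ᵀ = gramRoot δ Z := by
  have h : (CFC.sqrt (gram δ Z)).IsHermitian := (CFC.sqrt_nonneg _).posSemidef.1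
  rw [gramRoot, transpose_nonsing_inv]
  have e := h.eq
  rw [conjTranspose_eq_transpose_of_trivial] at e
  rw [e]

lemma gramRoot_sq {δ : ℝ} (hδ : 0 < δ) (Z : Matrix (Fin N) (Fin m) ℝ) :
    gramRoot δ Z * gramRoot δ Z = (gram δ Z)⁻¹ := by
  rw [gramRoot, ← Matrix.mul_inv_rev, sqrt_gram hδ Z]

lemma gram_mul_root {δ : ℝ} (hδ : 0 < δ) (Z : Matrix (Fin N) (Fin m) ℝ) :
    gramRoot δ Z * gram δ Z * gramRoot δ Z = 1 := by
  have hu := (isUnit_iff_ne_zero.2 (det_sqrt_gram hδ Z))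
  conv_lhs => arg 1; arg 2; rw [← sqrt_gram hδ Z]
  rw [gramRoot, ← Matrix.mul_assoc, nonsing_inv_mul _ hu, one_mul, mul_nonsing_inv _ hu]

/-- The polar factor is a contraction. -/
lemma polar_contraction {δ : ℝ} (hδ : 0 < δ) (Z : Matrix (Fin N) (Fin m) ℝ) :
    (1 - (polar δ Z)ᵀ * polar δ Z).PosSemidef := by
  have e : 1 - (polar δ Z)ᵀ * polar δ Z = δ • ((gramRoot δ Z)ᵀ * gramRoot δ Z) := by
    rw [polar, transpose_mul, gramRoot_transpose, Matrix.mul_assoc, ← Matrix.mul_assoc Zᵀ,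
      sub_eq_iff_eq_add]
    calc (1 : Matrix (Fin m) (Fin m) ℝ) = gramRoot δ Z * gram δ Z * gramRoot δ Z :=
          (gram_mul_root hδ Z).symm
      _ = _ := by
          simp only [gram, Matrix.mul_add, Matrix.add_mul, Matrix.mul_smul, Matrix.smul_mul,
            Matrix.mul_one, Matrix.mul_assoc]
          rw [add_comm]
  rw [e]
  refine Matrix.PosSemidef.smul ?_ hδ.le
  simpa [conjTranspose_eq_transpose_of_trivial] using
    posSemidef_conjTranspose_mul_self (gramRoot δ Z)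

/-- The compressed potential loses at most `δ tr W`. -/
lemma trace_polar {δ : ℝ} (hδ : 0 < δ) (Z : Matrix (Fin N) (Fin m) ℝ)
    {W : Matrix (Fin m) (Fin m) ℝ} (hW : W.PosSemidef) :
    (W * (Zᵀ * Z)).trace - δ * W.trace ≤
      (Zᵀ * (polar δ Z * W * (polar δ Z)ᵀ) * Z).trace := by
  set G := gram δ Z with hG
  set P := Zᵀ * Z with hP
  set S := gramRoot δ Z with hS
  have hPd := posDef_gram hδ Z
  have hu : IsUnit G.det := isUnit_iff_ne_zero.2 hPd.det_pos.ne'
  have hGP : P = G - δ • 1 := by simp [hG, gram, hP]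
  have h2 : P * G⁻¹ * P = P - δ • (1 : Matrix (Fin m) (Fin m) ℝ) + (δ ^ 2) • G⁻¹ := by
    rw [hGP]
    simp only [sub_mul, mul_sub, Matrix.smul_mul, Matrix.mul_smul, Matrix.mul_one, Matrix.one_mul,
      mul_nonsing_inv _ hu, nonsing_inv_mul _ hu, smul_sub, smul_smul]
    rw [← pow_two]
    abel
  have h1 : (Zᵀ * (polar δ Z * W * (polar δ Z)ᵀ) * Z).trace = (W * (S * P * (P * S))).trace := by
    rw [polar, transpose_mul, gramRoot_transpose, ← hS]
    have : Zᵀ * (Z * S * W * (S * Zᵀ)) * Z = P * S * (W * (S * P)) := by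
      simp only [hP, Matrix.mul_assoc]
    rw [this, Matrix.trace_mul_comm]
    simp only [Matrix.mul_assoc]
  have hcomm : S * P = P * S := by
    have hu' := isUnit_iff_ne_zero.2 (det_sqrt_gram hδ Z)
    have h3 : CFC.sqrt G * G = G * CFC.sqrt G := by
      rw [hG]
      conv_lhs => arg 2; rw [← sqrt_gram hδ Z]
      conv_rhs => arg 1; rw [← sqrt_gram hδ Z]
      simp only [Matrix.mul_assoc]
    have h4 : S * G = G * S := by
      calc S * G = S * (G * CFC.sqrt G) * S := by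
            rw [hS, gramRoot, ← hG, Matrix.mul_assoc, Matrix.mul_assoc, mul_nonsing_inv _ hu',
              Matrix.mul_one]
        _ = S * (CFC.sqrt G * G) * S := by rw [h3]
        _ = G * S := by
            rw [hS, gramRoot, ← hG, ← Matrix.mul_assoc (CFC.sqrt G)⁻¹, nonsing_inv_mul _ hu',
              Matrix.one_mul]
    simp only [hGP, mul_sub, sub_mul, h4, Matrix.mul_smul, Matrix.smul_mul, Matrix.mul_one,
      Matrix.one_mul]
  have h3 : S * P * (P * S) = P * G⁻¹ * P := by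
    calc S * P * (P * S) = P * S * (S * P) := by rw [hcomm]
      _ = P * (S * S) * P := by simp only [Matrix.mul_assoc]
      _ = _ := by rw [gramRoot_sq hδ Z]
  rw [h1, h3, h2, Matrix.mul_add, Matrix.mul_sub, Matrix.trace_add, Matrix.trace_sub,
    Matrix.mul_smul, Matrix.mul_smul, Matrix.mul_one, Matrix.trace_smul, Matrix.trace_smul,
    smul_eq_mul, smul_eq_mul]
  have hnn : 0 ≤ (W * G⁻¹).trace := by
    obtain ⟨X, hX⟩ := CStarAlgebra.nonneg_iff_eq_star_mul_self.1 hW.nonneg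
    rw [hX, star_eq_conjTranspose, Matrix.mul_assoc, Matrix.trace_mul_comm]
    simpa using (hPd.inv.posSemidef.mul_mul_conjTranspose_same X).trace_nonneg
  nlinarith [sq_nonneg δ]

section Continuity

open scoped Matrix.Norms.L2Operator

lemma continuous_gramRoot {δ : ℝ} (hδ : 0 < δ) :
    Continuous fun Z : Matrix (Fin N) (Fin m) ℝ => gramRoot δ Z := by
  have hg : Continuous fun Z : Matrix (Fin N) (Fin m) ℝ => gram δ Z := by
    unfold gram; fun_prop
  have hs : Continuous fun Z : Matrix (Fin N) (Fin m) ℝ => CFC.sqrt (gram δ Z) :=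
    CFC.continuousOn_sqrt.comp_continuous hg fun Z => (posDef_gram hδ Z).posSemidef.nonneg
  refine continuous_iff_continuousAt.2 fun Z => ?_
  refine (continuousAt_matrix_inv _ ?_).comp hs.continuousAt
  rw [Ring.inverse_eq_inv']
  exact continuousAt_inv₀ (det_sqrt_gram hδ Z)

lemma continuous_polar {δ : ℝ} (hδ : 0 < δ) :
    Continuous fun Z : Matrix (Fin N) (Fin m) ℝ => polar δ Z :=
  continuous_id.matrix_mul (continuous_gramRoot hδ)

end Continuity

end Vale.Agent.P371.Lift
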