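import Mathlib

/-!
P371 (lifting lemma): quadratic forms of square arrays and a first-crossing criterion for their
positivity along an interval.
-/

open Finset Set

namespace Vale.Agent.P371.Lift

variable {N : ℕ}

/-- Square arrays. -/
abbrev Arr (N : ℕ) := Fin N → Fin N → ℝ

/-- The quadratic form of an array. -/
def qf (M : Arr N) (u : Fin N → ℝ) : ℝ := ∑ i, u i * ∑ l, M i l * u l

/-- Squared euclidean norm. -/
def nsq (u : Fin N → ℝ) : ℝ := ∑ i, u i ^ 2

lemma nsq_nonneg (u : Fin N → ℝ) : 0 ≤ nsq u := Finset.sum_nonneg fun _ _ => sq_nonneg _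

lemma nsq_pos {u : Fin N → ℝ} (h : u ≠ 0) : 0 < nsq u := by
  obtain ⟨i, hi⟩ := Function.ne_iff.1 h
  exact lt_of_lt_of_le (lt_of_le_of_ne (sq_nonneg (u i)) (Ne.symm (pow_ne_zero 2 hi)))
    (Finset.single_le_sum (fun i _ => sq_nonneg (u i)) (Finset.mem_univ i))

lemma qf_smul (M : Arr N) (c : ℝ) (u : Fin N → ℝ) : qf M (c • u) = c ^ 2 * qf M u := by
  simp only [qf, Pi.smul_apply, smul_eq_mul, Finset.mul_sum]
  exact Finset.sum_congr rfl fun i _ => Finset.sum_congr rfl fun l _ => by ring

lemma qf_sub (A B : Arr N) (u : Fin N → ℝ) : qf (A - B) u = qf A u - qf B u := by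
  simp only [qf, Pi.sub_apply, sub_mul, Finset.sum_sub_distrib, mul_sub]

lemma qf_add (A B : Arr N) (u : Fin N → ℝ) : qf (A + B) u = qf A u + qf B u := by
  simp only [qf, Pi.add_apply, add_mul, Finset.sum_add_distrib, mul_add]

lemma qf_neg (A : Arr N) (u : Fin N → ℝ) : qf (-A) u = -qf A u := by
  simp [qf, Finset.sum_neg_distrib]

/-- A diagonal array. -/
def dia (d : Fin N → ℝ) : Arr N := fun i l => if i = l then d i else 0

lemma sum_dia (d u : Fin N → ℝ) (i : Fin N) : ∑ l, dia d i l * u l = d i * u i := by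
  simp [dia]

lemma qf_dia (d u : Fin N → ℝ) : qf (dia d) u = ∑ i, d i * u i ^ 2 := by
  simp only [qf, sum_dia]
  exact Finset.sum_congr rfl fun i _ => by ring

lemma dia_symm (d : Fin N → ℝ) (i l : Fin N) : dia d i l = dia d l i := by
  simp only [dia]
  by_cases h : i = l
  · subst h; rfl
  · rw [if_neg h, if_neg (Ne.symm h)]

lemma continuous_qf : Continuous fun p : Arr N × (Fin N → ℝ) => qf p.1 p.2 := by
  unfold qf; fun_prop

/-- The form value of an array applied to `e_i + s • e_l`. -/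
lemma qf_pair (M : Arr N) (u : Fin N → ℝ) (i : Fin N) (s : ℝ) :
    qf M (u + s • Pi.single i 1) =
      qf M u + s * ((∑ l, M i l * u l) + ∑ l, M l i * u l) + s ^ 2 * M i i := by
  have e : ∀ l, (u + s • Pi.single (M := fun _ => ℝ) i 1) l = u l + if l = i then s else 0 := by
    intro l; by_cases h : l = i <;> simp [h]
  simp only [qf, e, mul_add, add_mul, Finset.sum_add_distrib, mul_ite, mul_zero, ite_mul, zero_mul,
    Finset.sum_ite_eq', Finset.mem_univ, if_true]
  have : ∑ l, u l * (M l i * s) = s * ∑ l, M l i * u l := by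
    rw [Finset.mul_sum]; exact Finset.sum_congr rfl fun l _ => by ring
  rw [this]
  ring

/-- A null vector of a nonnegative symmetric form is in the kernel. -/
lemma kernel_of_qf_eq_zero {M : Arr N} (hs : ∀ i l, M i l = M l i)
    (h : ∀ w, 0 ≤ qf M w) {u : Fin N → ℝ} (hu : qf M u = 0) (i : Fin N) :
    ∑ l, M i l * u l = 0 := by
  set r := ∑ l, M i l * u l with hr
  have hd : ∀ s : ℝ, 0 ≤ M i i * (s * s) + 2 * r * s + 0 := by
    intro s
    have := h (u + s • Pi.single i 1)
    rw [qf_pair, hu] at this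
    have e : ∑ l, M l i * u l = r := Finset.sum_congr rfl fun l _ => by rw [hs l i]
    rw [e, ← hr] at this
    linarith
  have := discrim_le_zero hd
  simp only [discrim] at this
  nlinarith [sq_nonneg r]

/-- Entries are bounded by the form. -/
lemma abs_entry_le {M : Arr N} (hs : ∀ i l, M i l = M l i) {K : ℝ}
    (h : ∀ u, |qf M u| ≤ K * nsq u) (i l : Fin N) : |M i l| ≤ 2 * K := by
  have hb : ∀ j, qf M (Pi.single j 1) = M j j := fun j => by
    have := qf_pair M 0 j 1
    simpa [qf] using this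
  have hn : ∀ j, nsq (Pi.single (M := fun _ : Fin N => ℝ) j 1) = 1 := fun j => by
    have : ∀ x, (Pi.single (M := fun _ : Fin N => ℝ) j 1 x) ^ 2 = if x = j then 1 else 0 := by
      intro x; by_cases hx : x = j <;> simp [hx]
    simp [nsq, this]
  have hd : ∀ j, |M j j| ≤ K := fun j => by
    have := h (Pi.single j 1)
    rwa [hb, hn, mul_one] at this
  have hK : 0 ≤ K := le_trans (abs_nonneg _) (hd i)
  by_cases hil : i = l
  · subst hil; linarith [hd i]
  have hv : ∀ s : ℝ, qf M (Pi.single l 1 + s • Pi.single i 1) =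
      M l l + s * (2 * M i l) + s ^ 2 * M i i := by
    intro s
    rw [qf_pair, hb]
    have e1 : ∑ j, M i j * Pi.single (M := fun _ : Fin N => ℝ) l 1 j = M i l := by
      simp [Pi.single_apply]
    have e2 : ∑ j, M j i * Pi.single (M := fun _ : Fin N => ℝ) l 1 j = M l i := by
      simp [Pi.single_apply]
    rw [e1, e2, hs l i]; ring
  have hns : ∀ s : ℝ, nsq (Pi.single (M := fun _ : Fin N => ℝ) l 1 + s • Pi.single i 1) =
      1 + s ^ 2 := by
    intro s
    have : ∀ x, ((Pi.single l 1 + s • Pi.single i 1 : Fin N → ℝ) x) ^ 2 =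
        (if x = l then 1 else 0) + if x = i then s ^ 2 else 0 := by
      intro x
      by_cases hx : x = l
      · subst hx; simp [Ne.symm hil]
      · by_cases hx' : x = i <;> simp [hx, hx', hil]
    simp only [nsq, this, Finset.sum_add_distrib, Finset.sum_ite_eq', Finset.mem_univ, if_true]
  have h1 := abs_le.1 (h (Pi.single l 1 + (1 : ℝ) • Pi.single i 1))
  have h2 := abs_le.1 (h (Pi.single l 1 + (-1 : ℝ) • Pi.single i 1))
  rw [hv, hns] at h1 h2
  have := abs_le.1 (hd i)
  have := abs_le.1 (hd l)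
  rw [abs_le]
  constructor <;> linarith

/-- The unit sphere of the euclidean norm. -/
def sphereE (N : ℕ) : Set (Fin N → ℝ) := {u | nsq u = 1}

lemma isCompact_sphereE (N : ℕ) : IsCompact (sphereE N) := by
  have hc : IsClosed (sphereE N) := isClosed_eq (by unfold nsq; fun_prop) continuous_const
  refine (isCompact_univ_pi fun _ : Fin N => isCompact_Icc (a := (-1 : ℝ)) (b := 1)).of_isClosed_subset hc
    fun u (hu : nsq u = 1) i _ => ?_
  have : u i ^ 2 ≤ 1 := hu ▸ Finset.single_le_sum (fun i _ => sq_nonneg (u i)) (Finset.mem_univ i)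
  exact abs_le.1 (by nlinarith [abs_nonneg (u i), sq_abs (u i)])

lemma exists_sphere {u : Fin N → ℝ} (h : u ≠ 0) :
    ∃ w ∈ sphereE N, u = Real.sqrt (nsq u) • w := by
  have hp := nsq_pos h
  refine ⟨(Real.sqrt (nsq u))⁻¹ • u, ?_, ?_⟩
  · show nsq _ = 1
    have : ∀ i, ((Real.sqrt (nsq u))⁻¹ • u) i ^ 2 = (nsq u)⁻¹ * u i ^ 2 := by
      intro i
      rw [Pi.smul_apply, smul_eq_mul, mul_pow, inv_pow, Real.sq_sqrt hp.le]
    simp only [nsq] at this ⊢
    rw [Finset.sum_congr rfl fun i _ => this i, ← Finset.mul_sum]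
    exact inv_mul_cancel₀ hp.ne'
  · rw [smul_smul, mul_inv_cancel₀ (Real.sqrt_pos.2 hp).ne', one_smul]

/-- First-crossing criterion: positivity of the form propagates if its derivative is positive at
every null vector reached while the form is nonnegative. -/
theorem qf_pos_propagate {a b : ℝ} {D D' : ℝ → Arr N}
    (hD : ∀ x ∈ Icc a b, HasDerivWithinAt D (D' x) (Icc a b) x)
    (ha : ∀ u ≠ 0, 0 < qf (D a) u)
    (hstep : ∀ t ∈ Ioc a b, (∀ x ∈ Icc a t, ∀ u, 0 ≤ qf (D x) u) →
      ∀ u ≠ 0, qf (D t) u = 0 → 0 < qf (D' t) u) :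
    ∀ x ∈ Icc a b, ∀ u ≠ 0, 0 < qf (D x) u := by
  intro x hx u hu
  by_contra hneg
  have hcont : ContinuousOn D (Icc a b) := fun y hy => (hD y hy).continuousWithinAt
  have hq : ContinuousOn (fun p : ℝ × (Fin N → ℝ) => qf (D p.1) p.2) (Icc a b ×ˢ sphereE N) :=
    continuous_qf.comp_continuousOn
      ((hcont.comp continuousOn_fst fun p hp => hp.1).prodMk continuousOn_snd)
  set bad := (Icc a b ×ˢ sphereE N) ∩ (fun p : ℝ × (Fin N → ℝ) => qf (D p.1) p.2) ⁻¹' Iic 0
    with hbad
  have hbc : IsCompact bad :=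
    (isCompact_Icc.prod (isCompact_sphereE N)).of_isClosed_subset
      (hq.preimage_isClosed_of_isClosed (isClosed_Icc.prod (isCompact_sphereE N).isClosed)
        isClosed_Iic) Set.inter_subset_left
  have hbne : bad.Nonempty := by
    obtain ⟨w, hw, e⟩ := exists_sphere hu
    refine ⟨(x, w), ⟨⟨hx, hw⟩, ?_⟩⟩
    by_contra hc
    apply hneg
    rw [e, qf_smul]
    exact mul_pos (pow_pos (Real.sqrt_pos.2 (nsq_pos hu)) 2) (not_le.1 hc)
  obtain ⟨⟨t, w⟩, ⟨⟨ht, hw⟩, hle⟩, hmin⟩ :=
    hbc.exists_isMinOn hbne continuous_fst.continuousOn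
  simp only [Set.mem_preimage, Set.mem_Iic] at hle
  have hw0 : w ≠ 0 := fun e => by
    subst e
    have h1 : nsq (0 : Fin N → ℝ) = 1 := hw
    simp [nsq] at h1
  have hta : a < t := lt_of_le_of_ne ht.1 fun e => absurd (ha w hw0) (not_lt.2 (e ▸ hle))
  have hbefore : ∀ y ∈ Ico a t, ∀ v ∈ sphereE N, 0 < qf (D y) v := by
    intro y hy v hv
    by_contra hc
    have := hmin (show (y, v) ∈ bad from ⟨⟨⟨hy.1, hy.2.le.trans ht.2⟩, hv⟩, not_lt.1 hc⟩)
    simp only [Set.mem_ofPred_eq] at this
    exact absurd this (not_le.2 hy.2)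
  have hat : ∀ v, 0 ≤ qf (D t) v := by
    have key : ∀ v ∈ sphereE N, 0 ≤ qf (D t) v := by
      intro v hv
      have hcv : ContinuousWithinAt (fun y => qf (D y) v) (Icc a t) t :=
        (continuous_qf.continuousAt.comp_continuousWithinAt
          (f := fun y => (D y, v)) (((hcont t ht).mono (Icc_subset_Icc_right ht.2)).prodMk
            continuousWithinAt_const))
      have : (nhdsWithin t (Ico a t)).NeBot := by
        rw [← mem_closure_iff_nhdsWithin_neBot, closure_Ico hta.ne]
        exact right_mem_Icc.2 hta.le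
      exact ge_of_tendsto (hcv.mono Ico_subset_Icc_self)
        (eventually_nhdsWithin_of_forall fun y hy => (hbefore y hy v hv).le)
    intro v
    by_cases hv : v = 0
    · subst hv; simp [qf]
    · obtain ⟨v', hv', e⟩ := exists_sphere hv
      rw [e, qf_smul]
      exact mul_nonneg (sq_nonneg _) (key v' hv')
  have hall : ∀ y ∈ Icc a t, ∀ v, 0 ≤ qf (D y) v := by
    intro y hy v
    rcases hy.2.lt_or_eq with hlt | rfl
    · by_cases hv : v = 0
      · subst hv; simp [qf]
      · obtain ⟨v', hv', e⟩ := exists_sphere hv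
        rw [e, qf_smul]
        exact mul_nonneg (sq_nonneg _) (hbefore y ⟨hy.1, hlt⟩ v' hv').le
    · exact hat v
  have hzero : qf (D t) w = 0 := le_antisymm hle (hat w)
  have hpos := hstep t ⟨hta, ht.2⟩ hall w hw0 hzero
  have hder : HasDerivWithinAt (fun y => qf (D y) w) (qf (D' t) w) (Ico a t) t := by
    have h1 : HasDerivWithinAt D (D' t) (Ico a t) t :=
      (hD t ht).mono fun y hy => ⟨hy.1, hy.2.le.trans ht.2⟩
    have h2 : ∀ i, HasDerivWithinAt (fun y => ∑ l, D y i l * w l) (∑ l, D' t i l * w l)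
        (Ico a t) t := fun i =>
      HasDerivWithinAt.fun_sum fun l _ =>
        ((hasDerivWithinAt_pi.1 ((hasDerivWithinAt_pi.1 h1) i)) l).mul_const _
    exact HasDerivWithinAt.fun_sum fun i _ => (h2 i).const_mul _
  have : (nhdsWithin t (Ico a t)).NeBot := by
    rw [← mem_closure_iff_nhdsWithin_neBot, closure_Ico hta.ne]
    exact right_mem_Icc.2 hta.le
  have hlim := (hasDerivWithinAt_iff_tendsto_slope' (by simp)).1 hder
  have : qf (D' t) w ≤ 0 := le_of_tendsto hlim (eventually_nhdsWithin_of_forall fun y hy => by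
    have hy0 : 0 < qf (D y) w := hbefore y hy w hw
    rw [slope_def_field, hzero, sub_zero]
    exact div_nonpos_of_nonneg_of_nonpos hy0.le (by linarith [hy.2]))
  linarith

end Vale.Agent.P371.Lift
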