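import Mathlib
import Vale.Agent.P371.Lift.Quad

/-!
P371 (lifting lemma): the clipped matrix Riccati equation `M' = L² - λ - M² - V` from
`M(a) = (L² - λ)^{1/2}`, its comparison properties and the threshold in `λ`.
-/

open Finset Set
open scoped NNReal

namespace Vale.Agent.P371.Lift

variable {N : ℕ}

/-- Fixed data: the interval, the squared rates, a bound for the potential, the range of `λ`. -/
structure Box (N : ℕ) where
  a : ℝ
  b : ℝ
  hab : a ≤ b
  k2 : Fin N → ℝ
  B : ℝ
  hB : 0 ≤ B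
  top : ℝ
  htop : 0 ≤ top
  htop' : ∀ i, top < k2 i

/-- Admissible potentials for a box. -/
structure Pot (D : Box N) (V : ℝ → Arr N) : Prop where
  cont : ContinuousOn V (Icc D.a D.b)
  symm : ∀ x ∈ Icc D.a D.b, ∀ i l, V x i l = V x l i
  psd : ∀ x ∈ Icc D.a D.b, ∀ u, 0 ≤ qf (V x) u
  bound : ∀ x ∈ Icc D.a D.b, ‖V x‖ ≤ D.B

namespace Box

variable (D : Box N)

/-- Lower end of the range of `λ`. -/
def low : ℝ := -((N : ℝ) * D.B)

/-- Bound for `L² - λ`. -/
def C : ℝ := ∑ i, |D.k2 i| + (N : ℝ) * D.B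

/-- Bound for the form of the solution. -/
noncomputable def K : ℝ := Real.sqrt D.C + (D.b - D.a) * D.C

/-- Clipping level. -/
noncomputable def R : ℝ := 3 * D.K + 1

lemma low_nonpos : D.low ≤ 0 := by
  have := mul_nonneg (Nat.cast_nonneg (α := ℝ) N) D.hB
  simp only [low]; linarith

lemma low_le_top : D.low ≤ D.top := D.low_nonpos.trans D.htop

lemma C_nonneg : 0 ≤ D.C :=
  add_nonneg (Finset.sum_nonneg fun _ _ => abs_nonneg _) (mul_nonneg (Nat.cast_nonneg N) D.hB)

lemma K_nonneg : 0 ≤ D.K :=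
  add_nonneg (Real.sqrt_nonneg _) (mul_nonneg (sub_nonneg.2 D.hab) D.C_nonneg)

lemma k2_pos (i : Fin N) : 0 < D.k2 i := D.htop.trans_lt (D.htop' i)

lemma rate_pos {lam : ℝ} (h : lam ∈ Icc D.low D.top) (i : Fin N) : 0 < D.k2 i - lam := by
  linarith [h.2, D.htop' i]

lemma rate_le {lam : ℝ} (h : lam ∈ Icc D.low D.top) (i : Fin N) : D.k2 i - lam ≤ D.C := by
  have h1 := Finset.single_le_sum (fun i _ => abs_nonneg (D.k2 i)) (Finset.mem_univ i)
  have := h.1
  simp only [low] at this
  simp only [C]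
  linarith [le_abs_self (D.k2 i)]

/-- Rates after the shift by `λ`. -/
noncomputable def rate (lam : ℝ) (i : Fin N) : ℝ := Real.sqrt (D.k2 i - lam)

lemma rate_nonneg (lam : ℝ) (i : Fin N) : 0 ≤ D.rate lam i := Real.sqrt_nonneg _

lemma rate_sq {lam : ℝ} (h : lam ∈ Icc D.low D.top) (i : Fin N) :
    D.rate lam i ^ 2 = D.k2 i - lam := Real.sq_sqrt (D.rate_pos h i).le

lemma rate_le_sqrt {lam : ℝ} (h : lam ∈ Icc D.low D.top) (i : Fin N) :
    D.rate lam i ≤ Real.sqrt D.C := Real.sqrt_le_sqrt (D.rate_le h i)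

/-- Clipping. -/
noncomputable def clip (y : ℝ) : ℝ := max (-D.R) (min D.R y)

lemma abs_clip_le (y : ℝ) : |D.clip y| ≤ D.R := by
  have hR : 0 ≤ D.R := by simp only [R]; linarith [D.K_nonneg]
  exact abs_le.2 ⟨le_max_left _ _, max_le (by linarith) (min_le_left _ _)⟩

lemma clip_eq {y : ℝ} (h : |y| ≤ D.R) : D.clip y = y := by
  obtain ⟨h1, h2⟩ := abs_le.1 h
  simp [clip, h1, h2]

lemma clip_neg (y : ℝ) : D.clip (-y) = -D.clip y := by
  have hR : 0 ≤ D.R := by simp only [R]; linarith [D.K_nonneg]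
  simp only [clip, max_def, min_def]
  split_ifs <;> linarith

lemma dist_clip (y z : ℝ) : |D.clip y - D.clip z| ≤ |y - z| := by
  have h1 := abs_max_sub_max_le_max (-D.R) (min D.R y) (-D.R) (min D.R z)
  have h2 := abs_min_sub_min_le_max D.R y D.R z
  simp only [clip, sub_self, abs_zero, abs_nonneg, max_eq_right] at *
  exact h1.trans h2

/-- The square of the clipped array. -/
noncomputable def sq (M : Arr N) : Arr N := fun i l => ∑ j, D.clip (M i j) * D.clip (M j l)

/-- The clipped vector field. -/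
noncomputable def field (V : ℝ → Arr N) (lam x : ℝ) (M : Arr N) : Arr N :=
  dia (fun i => D.k2 i - lam) - D.sq M - V x

/-- Lipschitz constant of the field. -/
noncomputable def lip : ℝ≥0 := Real.toNNReal (2 * N * D.R)

lemma norm_sq_sub (M M' : Arr N) : ‖D.sq M - D.sq M'‖ ≤ 2 * N * D.R * ‖M - M'‖ := by
  have hR : 0 ≤ D.R := by simp only [R]; linarith [D.K_nonneg]
  refine (pi_norm_le_iff_of_nonneg (by positivity)).2 fun i => ?_
  refine (pi_norm_le_iff_of_nonneg (by positivity)).2 fun l => ?_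
  have hb : ∀ p q, |D.clip (M p q) - D.clip (M' p q)| ≤ ‖M - M'‖ := fun p q =>
    (D.dist_clip _ _).trans ((norm_le_pi_norm ((M - M') p) q).trans (norm_le_pi_norm (M - M') p))
  simp only [Pi.sub_apply, sq, ← Finset.sum_sub_distrib, Real.norm_eq_abs]
  refine (Finset.abs_sum_le_sum_abs _ _).trans ?_
  refine (Finset.sum_le_sum fun j _ => (show _ ≤ 2 * D.R * ‖M - M'‖ from ?_)).trans
    (by simp; linarith)
  rw [show D.clip (M i j) * D.clip (M j l) - D.clip (M' i j) * D.clip (M' j l) =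
    D.clip (M i j) * (D.clip (M j l) - D.clip (M' j l)) +
    (D.clip (M i j) - D.clip (M' i j)) * D.clip (M' j l) by ring]
  refine (abs_add_le _ _).trans ?_
  rw [abs_mul, abs_mul]
  have h1 := mul_le_mul (D.abs_clip_le (M i j)) (hb j l) (abs_nonneg _) hR
  have h2 := mul_le_mul (hb i j) (D.abs_clip_le (M' j l)) (abs_nonneg _) (norm_nonneg _)
  linarith

lemma norm_sq_le (M : Arr N) : ‖D.sq M‖ ≤ N * (D.R * D.R) := by
  refine (pi_norm_le_iff_of_nonneg (by positivity [mul_self_nonneg D.R])).2 fun i => ?_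
  refine (pi_norm_le_iff_of_nonneg (by positivity [mul_self_nonneg D.R])).2 fun l => ?_
  rw [Real.norm_eq_abs]
  refine (Finset.abs_sum_le_sum_abs _ _).trans ?_
  refine (Finset.sum_le_sum fun j _ => (show _ ≤ D.R * D.R from ?_)).trans (by simp)
  rw [abs_mul]
  exact mul_le_mul (D.abs_clip_le _) (D.abs_clip_le _) (abs_nonneg _)
    (le_trans (abs_nonneg _) (D.abs_clip_le (M i j)))

lemma lipschitz_field (V : ℝ → Arr N) (lam x : ℝ) : LipschitzWith D.lip (D.field V lam x) := by
  refine LipschitzWith.of_dist_le_mul fun M M' => ?_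
  rw [dist_eq_norm, dist_eq_norm, field, field,
    show dia (fun i => D.k2 i - lam) - D.sq M - V x - (dia (fun i => D.k2 i - lam) - D.sq M' - V x)
      = -(D.sq M - D.sq M') by abel, norm_neg]
  refine (D.norm_sq_sub M M').trans (mul_le_mul_of_nonneg_right ?_ (norm_nonneg _))
  exact Real.le_coe_toNNReal _

lemma norm_dia_le {d : Fin N → ℝ} {c : ℝ} (hc : 0 ≤ c) (h : ∀ i, |d i| ≤ c) : ‖dia d‖ ≤ c := by
  refine (pi_norm_le_iff_of_nonneg hc).2 fun i => (pi_norm_le_iff_of_nonneg hc).2 fun l => ?_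
  simp only [dia, Real.norm_eq_abs]
  split_ifs
  · exact h i
  · simpa using hc

lemma exists_sol {V : ℝ → Arr N} (hV : Pot D V) {lam : ℝ} (hl : lam ∈ Icc D.low D.top) :
    ∃ M : ℝ → Arr N, M D.a = dia (D.rate lam) ∧ ∀ x ∈ Icc D.a D.b,
      HasDerivWithinAt M (D.field V lam x (M x)) (Icc D.a D.b) x := by
  have hnn : 0 ≤ D.C + N * (D.R * D.R) + D.B :=
    add_nonneg (add_nonneg D.C_nonneg (mul_nonneg (Nat.cast_nonneg N) (mul_self_nonneg _))) D.hB
  have hf : IsPicardLindelof (D.field V lam) (⟨D.a, left_mem_Icc.2 D.hab⟩ : Icc D.a D.b)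
      (dia (D.rate lam)) (Real.toNNReal ((D.C + N * (D.R * D.R) + D.B) * (D.b - D.a))) 0
      (Real.toNNReal (D.C + N * (D.R * D.R) + D.B)) D.lip := by
    refine ⟨fun x _ => (D.lipschitz_field V lam x).lipschitzOnWith, fun M _ => ?_,
      fun x hx M _ => ?_, ?_⟩
    · exact (continuousOn_const.sub continuousOn_const).sub hV.cont
    · refine le_trans ?_ (Real.le_coe_toNNReal _)
      refine (norm_sub_le _ _).trans (add_le_add ((norm_sub_le _ _).trans
        (add_le_add (norm_dia_le D.C_nonneg fun i => ?_) (D.norm_sq_le M))) (hV.bound x hx))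
      rw [abs_of_pos (D.rate_pos hl i)]
      exact D.rate_le hl i
    · have hba := sub_nonneg.2 D.hab
      simp only [NNReal.coe_zero, sub_zero, sub_self, max_eq_left hba]
      rw [Real.coe_toNNReal _ hnn, Real.coe_toNNReal _ (mul_nonneg hnn hba)]
  exact hf.exists_eq_forall_mem_Icc_hasDerivWithinAt₀

open Classical in
/-- The solution of the clipped equation. -/
noncomputable def sol (V : ℝ → Arr N) (lam : ℝ) : ℝ → Arr N :=
  if h : Pot D V ∧ lam ∈ Icc D.low D.top then (D.exists_sol h.1 h.2).choose else fun _ => 0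

variable {D}
variable {V : ℝ → Arr N} {lam : ℝ}

lemma sol_spec (hV : Pot D V) (hl : lam ∈ Icc D.low D.top) :
    D.sol V lam D.a = dia (D.rate lam) ∧ ∀ x ∈ Icc D.a D.b,
      HasDerivWithinAt (D.sol V lam) (D.field V lam x (D.sol V lam x)) (Icc D.a D.b) x := by
  rw [sol, dif_pos ⟨hV, hl⟩]
  exact (D.exists_sol hV hl).choose_spec

lemma sol_continuousOn (hV : Pot D V) (hl : lam ∈ Icc D.low D.top) :
    ContinuousOn (D.sol V lam) (Icc D.a D.b) :=
  fun x hx => ((sol_spec hV hl).2 x hx).continuousWithinAt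

lemma hasDeriv_Ici {f : ℝ → Arr N} {f' : Arr N} {x : ℝ} (hx : x ∈ Ico D.a D.b)
    (h : HasDerivWithinAt f f' (Icc D.a D.b) x) : HasDerivWithinAt f f' (Ici x) x :=
  h.mono_of_mem_nhdsWithin (Icc_mem_nhdsGE_of_mem hx)

/-- Uniqueness. -/
lemma sol_unique (hV : Pot D V) (hl : lam ∈ Icc D.low D.top) {M : ℝ → Arr N}
    (h0 : M D.a = dia (D.rate lam))
    (h : ∀ x ∈ Icc D.a D.b, HasDerivWithinAt M (D.field V lam x (M x)) (Icc D.a D.b) x)
    {x : ℝ} (hx : x ∈ Icc D.a D.b) : M x = D.sol V lam x := by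
  have := dist_le_of_trajectories_ODE (v := D.field V lam) (δ := 0) (fun t => D.lipschitz_field V lam t)
    (fun y hy => (h y hy).continuousWithinAt)
    (fun y hy => hasDeriv_Ici hy (h y (Ico_subset_Icc_self hy)))
    (sol_continuousOn hV hl)
    (fun y hy => hasDeriv_Ici hy ((sol_spec hV hl).2 y (Ico_subset_Icc_self hy)))
    (by rw [h0, (sol_spec hV hl).1, dist_self]) x hx
  rw [zero_mul] at this
  exact dist_le_zero.1 this

lemma hasDeriv_entry {f : ℝ → Arr N} {f' : Arr N} {s : Set ℝ} {x : ℝ}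
    (h : HasDerivWithinAt f f' s x) (i l : Fin N) :
    HasDerivWithinAt (fun y => f y i l) (f' i l) s x :=
  hasDerivWithinAt_pi.1 (hasDerivWithinAt_pi.1 h i) l

lemma hasDeriv_qf {f : ℝ → Arr N} {f' : Arr N} {s : Set ℝ} {x : ℝ}
    (h : HasDerivWithinAt f f' s x) (u : Fin N → ℝ) :
    HasDerivWithinAt (fun y => qf (f y) u) (qf f' u) s x :=
  HasDerivWithinAt.fun_sum fun i _ =>
    (HasDerivWithinAt.fun_sum fun l _ => (hasDeriv_entry h i l).mul_const _).const_mul _

lemma sol_symm (hV : Pot D V) (hl : lam ∈ Icc D.low D.top) {x : ℝ} (hx : x ∈ Icc D.a D.b)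
    (i l : Fin N) : D.sol V lam x i l = D.sol V lam x l i := by
  have h := sol_unique hV hl (M := fun y i l => D.sol V lam y l i)
    (by funext i l; rw [(sol_spec hV hl).1]; exact dia_symm _ _ _)
    (fun y hy => hasDerivWithinAt_pi.2 fun i => hasDerivWithinAt_pi.2 fun l => by
      have := hasDeriv_entry ((sol_spec hV hl).2 y hy) l i
      refine this.congr_deriv ?_
      simp only [field, Pi.sub_apply, sq, dia_symm _ l i, hV.symm y hy l i]
      congr 2
      exact Finset.sum_congr rfl fun j _ => mul_comm _ _) hx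
  exact (congrFun (congrFun h i) l).symm

lemma qf_sq {M : Arr N} (hs : ∀ i l, M i l = M l i) (u : Fin N → ℝ) :
    qf (D.sq M) u = ∑ j, (∑ l, D.clip (M j l) * u l) ^ 2 := by
  simp only [qf, sq, Finset.sum_mul, Finset.mul_sum, pow_two]
  rw [Finset.sum_congr rfl fun i _ => Finset.sum_comm, Finset.sum_comm]
  refine Finset.sum_congr rfl fun j _ => Finset.sum_congr rfl fun i _ =>
    Finset.sum_congr rfl fun l _ => ?_
  rw [hs i j]; ring

lemma qf_field (hV : Pot D V) (hl : lam ∈ Icc D.low D.top) {x : ℝ} (hx : x ∈ Icc D.a D.b)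
    (u : Fin N → ℝ) :
    qf (D.field V lam x (D.sol V lam x)) u = ∑ i, (D.k2 i - lam) * u i ^ 2 -
      ∑ j, (∑ l, D.clip (D.sol V lam x j l) * u l) ^ 2 - qf (V x) u := by
  rw [field, qf_sub, qf_sub, qf_dia, qf_sq (sol_symm hV hl hx)]

lemma deriv_upper (hV : Pot D V) (hl : lam ∈ Icc D.low D.top) {x : ℝ} (hx : x ∈ Icc D.a D.b)
    (u : Fin N → ℝ) : qf (D.field V lam x (D.sol V lam x)) u ≤ D.C * nsq u := by
  rw [qf_field hV hl hx]
  have h1 : ∑ i, (D.k2 i - lam) * u i ^ 2 ≤ D.C * nsq u := by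
    rw [nsq, Finset.mul_sum]
    exact Finset.sum_le_sum fun i _ => mul_le_mul_of_nonneg_right (D.rate_le hl i) (sq_nonneg _)
  linarith [hV.psd x hx u,
    Finset.sum_nonneg fun j (_ : j ∈ Finset.univ) => sq_nonneg (∑ l, D.clip (D.sol V lam x j l) * u l)]

lemma qf_growth (hV : Pot D V) (hl : lam ∈ Icc D.low D.top) {x y : ℝ} (hx : x ∈ Icc D.a D.b)
    (hy : y ∈ Icc D.a D.b) (hxy : x ≤ y) (u : Fin N → ℝ) :
    qf (D.sol V lam y) u - qf (D.sol V lam x) u ≤ D.C * nsq u * (y - x) := by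
  refine (convex_Icc D.a D.b).image_sub_le_mul_sub_of_deriv_le
    (f := fun z => qf (D.sol V lam z) u)
    (fun z hz => (hasDeriv_qf ((sol_spec hV hl).2 z hz) u).continuousWithinAt) ?_ ?_
    x hx y hy hxy
  · intro z hz
    rw [interior_Icc] at hz
    exact ((hasDeriv_qf ((sol_spec hV hl).2 z (Ioo_subset_Icc_self hz)) u).hasDerivAt
      (Icc_mem_nhds hz.1 hz.2)).differentiableAt.differentiableWithinAt
  · intro z hz
    rw [interior_Icc] at hz
    rw [((hasDeriv_qf ((sol_spec hV hl).2 z (Ioo_subset_Icc_self hz)) u).hasDerivAt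
      (Icc_mem_nhds hz.1 hz.2)).deriv]
    exact deriv_upper hV hl (Ioo_subset_Icc_self hz) u

lemma qf_upper (hV : Pot D V) (hl : lam ∈ Icc D.low D.top) {x : ℝ} (hx : x ∈ Icc D.a D.b)
    (u : Fin N → ℝ) : qf (D.sol V lam x) u ≤ D.K * nsq u := by
  have h := qf_growth hV hl (left_mem_Icc.2 D.hab) hx hx.1 u
  rw [(sol_spec hV hl).1, qf_dia] at h
  have h2 : ∑ i, D.rate lam i * u i ^ 2 ≤ Real.sqrt D.C * nsq u := by
    rw [nsq, Finset.mul_sum]
    exact Finset.sum_le_sum fun i _ =>
      mul_le_mul_of_nonneg_right (D.rate_le_sqrt hl i) (sq_nonneg _)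
  have h3 : D.C * nsq u * (x - D.a) ≤ D.C * nsq u * (D.b - D.a) :=
    mul_le_mul_of_nonneg_left (by linarith [hx.2]) (mul_nonneg D.C_nonneg (nsq_nonneg u))
  simp only [K]
  linarith

/-- The mismatch at the right end is nonnegative. -/
def Good (D : Box N) (V : ℝ → Arr N) (lam : ℝ) : Prop :=
  ∀ u, 0 ≤ qf (D.sol V lam D.b) u + ∑ i, D.rate lam i * u i ^ 2

lemma good_lower (hV : Pot D V) (hl : lam ∈ Icc D.low D.top) (hg : Good D V lam) {x : ℝ}
    (hx : x ∈ Icc D.a D.b) (u : Fin N → ℝ) : -(D.K * nsq u) ≤ qf (D.sol V lam x) u := by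
  have h := qf_growth hV hl hx (right_mem_Icc.2 D.hab) hx.2 u
  have h1 := hg u
  have h2 : ∑ i, D.rate lam i * u i ^ 2 ≤ Real.sqrt D.C * nsq u := by
    rw [nsq, Finset.mul_sum]
    exact Finset.sum_le_sum fun i _ =>
      mul_le_mul_of_nonneg_right (D.rate_le_sqrt hl i) (sq_nonneg _)
  have h3 : D.C * nsq u * (D.b - x) ≤ D.C * nsq u * (D.b - D.a) :=
    mul_le_mul_of_nonneg_left (by linarith [hx.1]) (mul_nonneg D.C_nonneg (nsq_nonneg u))
  simp only [K]
  linarith

lemma clip_sol (hV : Pot D V) (hl : lam ∈ Icc D.low D.top) {x : ℝ} (hx : x ∈ Icc D.a D.b)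
    (hlow : ∀ u, -(D.K * nsq u) ≤ qf (D.sol V lam x) u) (i l : Fin N) :
    D.clip (D.sol V lam x i l) = D.sol V lam x i l := by
  refine D.clip_eq ((abs_entry_le (sol_symm hV hl hx) (fun u => abs_le.2
    ⟨hlow u, qf_upper hV hl hx u⟩) i l).trans ?_)
  simp only [R]
  linarith [D.K_nonneg]

/-- The true equation holds along a good solution. -/
lemma good_deriv (hV : Pot D V) (hl : lam ∈ Icc D.low D.top) (hg : Good D V lam) {x : ℝ}
    (hx : x ∈ Icc D.a D.b) :
    D.field V lam x (D.sol V lam x) = dia (fun i => D.k2 i - lam) -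
      (fun i l => ∑ j, D.sol V lam x i j * D.sol V lam x j l) - V x := by
  have : D.sq (D.sol V lam x) = fun i l => ∑ j, D.sol V lam x i j * D.sol V lam x j l := by
    funext i l
    simp only [sq, clip_sol hV hl hx (good_lower hV hl hg hx)]
  rw [field, this]

lemma good_low (hV : Pot D V) : Good D V D.low := by
  have hl : D.low ∈ Icc D.low D.top := left_mem_Icc.2 D.low_le_top
  have hpos := qf_pos_propagate (D := D.sol V D.low) (fun x hx => (sol_spec hV hl).2 x hx)
    (fun u hu => by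
      rw [(sol_spec hV hl).1, qf_dia]
      obtain ⟨i, hi⟩ := Function.ne_iff.1 hu
      exact Finset.sum_pos' (fun j _ => mul_nonneg (D.rate_nonneg _ _) (sq_nonneg _))
        ⟨i, Finset.mem_univ i, mul_pos (Real.sqrt_pos.2 (D.rate_pos hl i)) (lt_of_le_of_ne
          (sq_nonneg _) (Ne.symm (pow_ne_zero 2 hi)))⟩)
    (fun t ht hnn u hu h0 => by
      have htI : t ∈ Icc D.a D.b := Ioc_subset_Icc_self ht
      have hlow : ∀ w, -(D.K * nsq w) ≤ qf (D.sol V D.low t) w := fun w =>
        le_trans (by linarith [mul_nonneg D.K_nonneg (nsq_nonneg w)]) (hnn t (right_mem_Icc.2 ht.1.le) w)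
      have hker := kernel_of_qf_eq_zero (sol_symm hV hl htI) (hnn t (right_mem_Icc.2 ht.1.le)) h0
      rw [qf_field hV hl htI]
      have e : ∀ j, ∑ l, D.clip (D.sol V D.low t j l) * u l = 0 := fun j => by
        simp only [clip_sol hV hl htI hlow, hker j]
      simp only [e, ne_eq, OfNat.ofNat_ne_zero, not_false_eq_true, zero_pow, Finset.sum_const_zero,
        sub_zero]
      have hVb : qf (V t) u ≤ (N : ℝ) * D.B * nsq u := by
        have hb : ∀ i l, |V t i l| ≤ D.B := fun i l =>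
          ((norm_le_pi_norm (V t i) l).trans (norm_le_pi_norm (V t) i)).trans (hV.bound t htI)
        calc qf (V t) u ≤ ∑ i, ∑ l, D.B * ((u i ^ 2 + u l ^ 2) / 2) := by
              simp only [qf, Finset.mul_sum]
              refine Finset.sum_le_sum fun i _ => Finset.sum_le_sum fun l _ => ?_
              have h1 : u i * (V t i l * u l) ≤ |V t i l| * |u i * u l| := by
                rw [← abs_mul]
                exact le_of_eq_of_le (by ring) (le_abs_self (V t i l * (u i * u l)))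
              refine h1.trans (mul_le_mul (hb i l) ?_ (abs_nonneg _) D.hB)
              rw [abs_le]
              constructor <;> nlinarith [sq_nonneg (u i + u l), sq_nonneg (u i - u l)]
          _ = (N : ℝ) * D.B * nsq u := by
              simp only [mul_div_assoc', mul_add, add_div, Finset.sum_add_distrib, Finset.sum_const,
                Finset.card_univ, Fintype.card_fin, nsmul_eq_mul, ← Finset.mul_sum, nsq,
                ← Finset.sum_div]
              ring
      have h2 : ∑ i, (D.k2 i - D.low) * u i ^ 2 = (∑ i, D.k2 i * u i ^ 2) + (N : ℝ) * D.B * nsq u := by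
        simp only [low, sub_neg_eq_add, add_mul, Finset.sum_add_distrib, nsq, ← Finset.mul_sum]
      obtain ⟨i, hi⟩ := Function.ne_iff.1 hu
      have : 0 < ∑ i, D.k2 i * u i ^ 2 :=
        Finset.sum_pos' (fun j _ => mul_nonneg (D.k2_pos j).le (sq_nonneg _))
          ⟨i, Finset.mem_univ i, mul_pos (D.k2_pos i) (lt_of_le_of_ne (sq_nonneg _)
            (Ne.symm (pow_ne_zero 2 hi)))⟩
      linarith)
  intro u
  refine add_nonneg ?_ (Finset.sum_nonneg fun i _ => mul_nonneg (D.rate_nonneg _ _) (sq_nonneg _))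
  by_cases hu : u = 0
  · subst hu; simp [qf]
  · exact (hpos D.b (right_mem_Icc.2 D.hab) u hu).le

/-- Monotonicity in `λ`: below a good value the mismatch is positive. -/
lemma pos_of_lt (hV : Pot D V) {mu : ℝ} (hm : mu ∈ Icc D.low D.top) (hl : lam ∈ Icc D.low D.top)
    (hg : Good D V mu) (hlt : lam < mu) (u : Fin N → ℝ) (hu : u ≠ 0) :
    0 < qf (D.sol V lam D.b) u + ∑ i, D.rate lam i * u i ^ 2 := by
  have hrate : ∀ i, D.rate mu i < D.rate lam i := fun i =>
    Real.sqrt_lt_sqrt (D.rate_pos hm i).le (by linarith)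
  have hpos := qf_pos_propagate (D := fun x => D.sol V lam x - D.sol V mu x)
    (fun x hx => ((sol_spec hV hl).2 x hx).sub ((sol_spec hV hm).2 x hx))
    (fun w hw => by
      rw [qf_sub, (sol_spec hV hl).1, (sol_spec hV hm).1, qf_dia, qf_dia, ← Finset.sum_sub_distrib]
      obtain ⟨i, hi⟩ := Function.ne_iff.1 hw
      refine Finset.sum_pos' (fun j _ => ?_) ⟨i, Finset.mem_univ i, ?_⟩
      · rw [← sub_mul]; exact mul_nonneg (sub_nonneg.2 (hrate j).le) (sq_nonneg _)
      · rw [← sub_mul]; exact mul_pos (sub_pos.2 (hrate i))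
          (lt_of_le_of_ne (sq_nonneg _) (Ne.symm (pow_ne_zero 2 hi))))
    (fun t ht hnn w hw h0 => by
      have htI : t ∈ Icc D.a D.b := Ioc_subset_Icc_self ht
      have hge := hnn t (right_mem_Icc.2 ht.1.le)
      have hlow : ∀ v, -(D.K * nsq v) ≤ qf (D.sol V lam t) v := fun v => by
        have := hge v
        rw [qf_sub] at this
        linarith [good_lower hV hm hg htI v]
      have hsym : ∀ i l, (D.sol V lam t - D.sol V mu t) i l =
          (D.sol V lam t - D.sol V mu t) l i := fun i l => by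
        simp only [Pi.sub_apply, sol_symm hV hl htI i l, sol_symm hV hm htI i l]
      have hker := kernel_of_qf_eq_zero hsym hge h0
      rw [qf_sub, qf_field hV hl htI, qf_field hV hm htI]
      have e : ∀ j, ∑ l, D.clip (D.sol V lam t j l) * w l =
          ∑ l, D.clip (D.sol V mu t j l) * w l := fun j => by
        simp only [clip_sol hV hl htI hlow, clip_sol hV hm htI (good_lower hV hm hg htI)]
        have := hker j
        simp only [Pi.sub_apply, sub_mul, Finset.sum_sub_distrib] at this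
        linarith
      simp only [e]
      have h2 : ∑ i, (D.k2 i - lam) * w i ^ 2 - ∑ i, (D.k2 i - mu) * w i ^ 2 =
          (mu - lam) * nsq w := by
        rw [← Finset.sum_sub_distrib, nsq, Finset.mul_sum]
        exact Finset.sum_congr rfl fun i _ => by ring
      linarith [mul_pos (sub_pos.2 hlt) (nsq_pos hw)])
  have h1 := hpos D.b (right_mem_Icc.2 D.hab) u hu
  rw [qf_sub] at h1
  have h2 : ∑ i, D.rate mu i * u i ^ 2 ≤ ∑ i, D.rate lam i * u i ^ 2 :=
    Finset.sum_le_sum fun i _ => mul_le_mul_of_nonneg_right (hrate i).le (sq_nonneg _)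
  linarith [hg u]

lemma good_of_lt (hV : Pot D V) {mu : ℝ} (hm : mu ∈ Icc D.low D.top)
    (hl : lam ∈ Icc D.low D.top) (hg : Good D V mu) (hlt : lam ≤ mu) : Good D V lam := by
  rcases hlt.eq_or_lt with rfl | h
  · exact hg
  intro u
  by_cases hu : u = 0
  · subst hu; simp [qf]
  · exact (pos_of_lt hV hm hl hg h u hu).le

end Box

end Vale.Agent.P371.Lift
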