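import Mathlib
import Vale.Agent.P371.Lift.Riccati

/-!
P371 (lifting lemma): the threshold in `λ` for the clipped Riccati equation, its continuity in the
potential, the bound by test vectors, and two-sided bounds for the exact solutions.
-/

open Finset Set MeasureTheory
open scoped NNReal Topology

namespace Vale.Agent.P371.Lift

variable {N : ℕ}

lemma gronwallBound_linear (δ K ε x : ℝ) :
    gronwallBound δ K ε x = δ * gronwallBound 1 K 0 x + ε * gronwallBound 0 K 1 x := by
  by_cases hK : K = 0
  · subst hK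
    simp [gronwallBound_K0]
  · simp only [gronwallBound_of_K_ne_0 hK]
    ring

namespace Box

variable {D : Box N}

lemma pot_reverse {V : ℝ → Arr N} (hV : Pot D V) : Pot D fun x => V (D.a + D.b - x) := by
  have hm : ∀ x ∈ Icc D.a D.b, D.a + D.b - x ∈ Icc D.a D.b := fun x hx =>
    ⟨by linarith [hx.2], by linarith [hx.1]⟩
  exact ⟨hV.cont.comp (by fun_prop) hm, fun x hx => hV.symm _ (hm x hx),
    fun x hx => hV.psd _ (hm x hx), fun x hx => hV.bound _ (hm x hx)⟩

/-- Change of the solution under a change of potential and parameter. -/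
lemma dist_sol_le {V W : ℝ → Arr N} (hV : Pot D V) (hW : Pot D W) {lam mu : ℝ}
    (hl : lam ∈ Icc D.low D.top) (hm : mu ∈ Icc D.low D.top) {ε : ℝ}
    (hVW : ∀ x ∈ Icc D.a D.b, dist (V x) (W x) ≤ ε) :
    dist (D.sol V lam D.b) (D.sol W mu D.b) ≤
      dist (dia (D.rate lam)) (dia (D.rate mu)) * gronwallBound 1 D.lip 0 (D.b - D.a) +
        (|lam - mu| + ε) * gronwallBound 0 D.lip 1 (D.b - D.a) := by
  have h := dist_le_of_approx_trajectories_ODE (v := D.field V lam) (εf := 0) (εg := |lam - mu| + ε)
    (fun t => D.lipschitz_field V lam t) (sol_continuousOn hV hl)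
    (fun y hy => hasDeriv_Ici hy ((sol_spec hV hl).2 y (Ico_subset_Icc_self hy)))
    (fun y _ => (dist_self _).le) (sol_continuousOn hW hm)
    (fun y hy => hasDeriv_Ici hy ((sol_spec hW hm).2 y (Ico_subset_Icc_self hy)))
    (fun y hy => ?_) (le_refl (dist (D.sol V lam D.a) (D.sol W mu D.a))) D.b
    (right_mem_Icc.2 D.hab)
  · rw [gronwallBound_linear, zero_add, (sol_spec hV hl).1, (sol_spec hW hm).1] at h
    exact h
  · rw [dist_eq_norm, field, field,
      show dia (fun i => D.k2 i - mu) - D.sq (D.sol W mu y) - W y -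
          (dia (fun i => D.k2 i - lam) - D.sq (D.sol W mu y) - V y) =
        (dia (fun i => D.k2 i - mu) - dia (fun i => D.k2 i - lam)) + (V y - W y) by abel]
    refine (norm_add_le _ _).trans (add_le_add ?_
      (by rw [← dist_eq_norm]; exact hVW y (Ico_subset_Icc_self hy)))
    rw [show dia (fun i => D.k2 i - mu) - dia (fun i => D.k2 i - lam) =
        dia (fun _ : Fin N => lam - mu) by
      funext i l
      by_cases hil : i = l <;> simp [dia, hil]]
    exact norm_dia_le (abs_nonneg _) fun _ => le_rfl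

/-- The mismatch at the right end as a form. -/
noncomputable def mis (D : Box N) (V : ℝ → Arr N) (lam : ℝ) : Arr N := D.sol V lam D.b + dia (D.rate lam)

lemma qf_mis (V : ℝ → Arr N) (lam : ℝ) (u : Fin N → ℝ) :
    qf (D.mis V lam) u = qf (D.sol V lam D.b) u + ∑ i, D.rate lam i * u i ^ 2 := by
  rw [mis, qf_add, qf_dia]

lemma good_iff {V : ℝ → Arr N} {lam : ℝ} :
    Good D V lam ↔ ∀ u, 0 ≤ qf (D.mis V lam) u := by simp only [Good, qf_mis]

lemma continuous_dia_rate : Continuous fun lam => dia (D.rate lam) := by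
  refine continuous_pi fun i => continuous_pi fun l => ?_
  simp only [dia, rate]
  split_ifs
  · exact Real.continuous_sqrt.comp (continuous_const.sub continuous_id)
  · exact continuous_const

/-- A continuous family of potentials. -/
structure Fam (D : Box N) (P : Type*) [TopologicalSpace P] where
  V : P → ℝ → Arr N
  pot : ∀ p, Pot D (V p)
  cont : ∀ p, ∀ ε > (0 : ℝ), ∀ᶠ q in 𝓝 p, ∀ x ∈ Icc D.a D.b, dist (V q x) (V p x) ≤ ε

variable {P : Type*} [TopologicalSpace P] (F : Fam D P)

lemma continuous_mis : Continuous fun q : P × Icc D.low D.top => D.mis (F.V q.1) q.2 := by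
  have hsol : Continuous fun q : P × Icc D.low D.top => D.sol (F.V q.1) q.2 D.b := by
    refine continuous_iff_continuousAt.2 fun ⟨p, lam⟩ => Metric.tendsto_nhds.2 fun η hη => ?_
    set G1 := gronwallBound 1 (D.lip : ℝ) 0 (D.b - D.a) with hG1
    set G2 := gronwallBound 0 (D.lip : ℝ) 1 (D.b - D.a) with hG2
    obtain ⟨ε, hε, hεlt⟩ : ∃ ε > (0 : ℝ), ε * (|G1| + 2 * |G2|) < η := by
      refine ⟨η / (|G1| + 2 * |G2| + 1), by positivity, ?_⟩
      rw [div_mul_eq_mul_div, div_lt_iff₀ (by positivity)]
      exact mul_lt_mul_of_pos_left (by linarith) hη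
    have h1 : ∀ᶠ q : P × Icc D.low D.top in 𝓝 (p, lam),
        ∀ x ∈ Icc D.a D.b, dist (F.V q.1 x) (F.V p x) ≤ ε :=
      (continuous_fst.continuousAt (x := ((p, lam) : P × Icc D.low D.top))).eventually (F.cont p ε hε)
    have h2 : ∀ᶠ q : P × Icc D.low D.top in 𝓝 (p, lam), |(q.2 : ℝ) - (lam : ℝ)| ≤ ε := by
      filter_upwards [((continuous_subtype_val.comp continuous_snd).continuousAt
        (x := ((p, lam) : P × Icc D.low D.top))).eventually (Metric.closedBall_mem_nhds _ hε)]
        with q hq
      simpa [Real.dist_eq] using hq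
    have h3 : ∀ᶠ q : P × Icc D.low D.top in 𝓝 (p, lam),
        dist (dia (D.rate (q.2 : ℝ))) (dia (D.rate (lam : ℝ))) ≤ ε :=
      ((continuous_dia_rate.comp (continuous_subtype_val.comp continuous_snd)).continuousAt
        (x := ((p, lam) : P × Icc D.low D.top))).eventually (Metric.closedBall_mem_nhds _ hε)
    filter_upwards [h1, h2, h3] with q hq1 hq2 hq3
    refine lt_of_le_of_lt ((dist_sol_le (F.pot q.1) (F.pot p) q.2.2 lam.2 hq1).trans ?_) hεlt
    rw [← hG1, ← hG2]
    have e1 : dist (dia (D.rate (q.2 : ℝ))) (dia (D.rate (lam : ℝ))) * G1 ≤ ε * |G1| :=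
      (mul_le_mul_of_nonneg_left (le_abs_self _) dist_nonneg).trans
        (mul_le_mul_of_nonneg_right hq3 (abs_nonneg _))
    have e2 : (|(q.2 : ℝ) - (lam : ℝ)| + ε) * G2 ≤ (ε + ε) * |G2| :=
      (mul_le_mul_of_nonneg_left (le_abs_self _) (by positivity)).trans
        (mul_le_mul_of_nonneg_right (by linarith) (abs_nonneg _))
    linarith
  exact hsol.add (continuous_dia_rate.comp (continuous_subtype_val.comp continuous_snd))

lemma eventually_pos {q : P × Icc D.low D.top}
    (h : ∀ u ≠ 0, 0 < qf (D.mis (F.V q.1) q.2) u) :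
    ∀ᶠ q' in 𝓝 q, Good D (F.V q'.1) q'.2 := by
  have hc : Continuous fun z : (P × Icc D.low D.top) × (Fin N → ℝ) =>
      qf (D.mis (F.V z.1.1) z.1.2) z.2 :=
    continuous_qf.comp (((continuous_mis F).comp continuous_fst).prodMk continuous_snd)
  have := (isCompact_sphereE N).eventually_forall_of_forall_eventually (x₀ := q)
    (P := fun q' u => 0 < qf (D.mis (F.V q'.1) q'.2) u) fun u hu =>
      hc.continuousAt.eventually (eventually_gt_nhds (h u fun e => by
        subst e
        have h1 : nsq (0 : Fin N → ℝ) = 1 := hu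
        simp [nsq] at h1))
  filter_upwards [this] with q' hq'
  rw [good_iff]
  intro u
  by_cases hu : u = 0
  · subst hu; simp [qf]
  · obtain ⟨w, hw, e⟩ := exists_sphere hu
    rw [e, qf_smul]
    exact mul_nonneg (sq_nonneg _) (hq' w hw).le

lemma isClosed_good : IsClosed {q : P × Icc D.low D.top | Good D (F.V q.1) q.2} := by
  simp only [good_iff, Set.ofPred_forall]
  exact isClosed_iInter fun u => isClosed_le continuous_const
    (continuous_qf.comp ((continuous_mis F).prodMk continuous_const))

/-- The threshold. -/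
noncomputable def thr (D : Box N) (V : ℝ → Arr N) : ℝ :=
  sSup {lam | lam ∈ Icc D.low D.top ∧ Good D V lam}

lemma thr_set_nonempty {V : ℝ → Arr N} (hV : Pot D V) :
    {lam | lam ∈ Icc D.low D.top ∧ Good D V lam}.Nonempty :=
  ⟨D.low, left_mem_Icc.2 D.low_le_top, good_low hV⟩

lemma bddAbove_thr_set (V : ℝ → Arr N) :
    BddAbove {lam | lam ∈ Icc D.low D.top ∧ Good D V lam} := ⟨D.top, fun _ h => h.1.2⟩

lemma thr_mem {V : ℝ → Arr N} (hV : Pot D V) : D.thr V ∈ Icc D.low D.top :=
  ⟨le_csSup (bddAbove_thr_set V) ⟨left_mem_Icc.2 D.low_le_top, good_low hV⟩,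
    csSup_le (thr_set_nonempty hV) fun _ h => h.1.2⟩

lemma good_thr (p : P) : Good D (F.V p) (D.thr (F.V p)) := by
  have hset : IsClosed {lam : Icc D.low D.top | Good D (F.V p) lam} :=
    (isClosed_good F).preimage (f := fun lam : Icc D.low D.top => (p, lam))
      (continuous_const.prodMk continuous_id)
  have himg : {lam | lam ∈ Icc D.low D.top ∧ Good D (F.V p) lam} =
      Subtype.val '' {lam : Icc D.low D.top | Good D (F.V p) lam} := by
    ext x
    simp only [Set.mem_ofPred_eq, Set.mem_image, Subtype.exists, exists_and_right, exists_eq_right]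
    exact ⟨fun h => ⟨h.1, h.2⟩, fun ⟨h1, h2⟩ => ⟨h1, h2⟩⟩
  have hc : IsClosed {lam | lam ∈ Icc D.low D.top ∧ Good D (F.V p) lam} := by
    rw [himg]
    exact isClosed_Icc.isClosedEmbedding_subtypeVal.isClosedMap _ hset
  exact (hc.csSup_mem (thr_set_nonempty (F.pot p)) (bddAbove_thr_set _)).2

lemma continuous_thr : Continuous fun p => D.thr (F.V p) := by
  refine continuous_iff_continuousAt.2 fun p => Metric.tendsto_nhds.2 fun η hη => ?_
  set t := D.thr (F.V p) with ht
  have htI : t ∈ Icc D.low D.top := thr_mem (F.pot p)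
  have hlow : ∀ᶠ q in 𝓝 p, t - η < D.thr (F.V q) := by
    rcases lt_or_ge (t - η / 2) D.low with hl | hl
    · exact Filter.Eventually.of_forall fun q => by linarith [(thr_mem (F.pot q)).1]
    · have hm : t - η / 2 ∈ Icc D.low D.top := ⟨hl, by linarith [htI.2]⟩
      have := eventually_pos F (q := (p, ⟨t - η / 2, hm⟩)) fun u hu => by
        rw [qf_mis]
        exact pos_of_lt (F.pot p) htI hm (good_thr F p) (by linarith) u hu
      filter_upwards [((continuous_id.prodMk continuous_const).continuousAt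
        (x := p)).eventually this] with q hq
      have : t - η / 2 ≤ D.thr (F.V q) := le_csSup (bddAbove_thr_set _) ⟨hm, hq⟩
      linarith
  have hhigh : ∀ᶠ q in 𝓝 p, D.thr (F.V q) < t + η := by
    rcases lt_or_ge D.top (t + η) with hl | hl
    · exact Filter.Eventually.of_forall fun q => by linarith [(thr_mem (F.pot q)).2]
    · have hm : t + η / 2 ∈ Icc D.low D.top := ⟨by linarith [htI.1], by linarith⟩
      have hng : ¬ Good D (F.V p) (t + η / 2) := fun hg => by
        have : t + η / 2 ≤ t := le_csSup (bddAbove_thr_set _) ⟨hm, hg⟩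
        linarith
      have hopen : IsOpen {q : P | ¬ Good D (F.V q) (t + η / 2)} :=
        ((isClosed_good F).preimage (f := fun q : P => (q, (⟨t + η / 2, hm⟩ : Icc D.low D.top)))
          (continuous_id.prodMk continuous_const)).isOpen_compl
      filter_upwards [hopen.mem_nhds hng] with q hq
      refine lt_of_le_of_lt (not_lt.1 fun hlt => hq ?_) (by linarith : t + η / 2 < t + η)
      exact good_of_lt (F.pot q) (thr_mem (F.pot q)) hm (good_thr F q) hlt.le
  filter_upwards [hlow, hhigh] with q h1 h2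
  rw [Real.dist_eq, abs_lt]
  constructor <;> linarith

/-- Below the upper end of the range the mismatch at the threshold is singular. -/
lemma exists_null (p : P) (h : D.thr (F.V p) < D.top) :
    ∃ u ≠ 0, qf (D.mis (F.V p) (D.thr (F.V p))) u = 0 := by
  by_contra hno
  push Not at hno
  set t : Icc D.low D.top := ⟨D.thr (F.V p), thr_mem (F.pot p)⟩
  have := eventually_pos F (q := (p, t)) fun u hu =>
    lt_of_le_of_ne (good_iff.1 (good_thr F p) u) (Ne.symm (hno u hu))
  obtain ⟨ε, hε, hball⟩ := Metric.eventually_nhds_iff.1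
    (((continuous_const.prodMk continuous_id).continuousAt (x := t)).eventually this)
  set s := min D.top (D.thr (F.V p) + ε / 2) with hs
  have hsI : s ∈ Icc D.low D.top :=
    ⟨le_min D.low_le_top (by linarith [(thr_mem (F.pot p)).1]), min_le_left _ _⟩
  have hgood := hball (y := ⟨s, hsI⟩) (by
    rw [Subtype.dist_eq, Real.dist_eq]
    have h1 : D.thr (F.V p) ≤ s := le_min h.le (by linarith)
    have h2 : s ≤ D.thr (F.V p) + ε / 2 := min_le_right _ _
    show |s - D.thr (F.V p)| < ε
    rw [abs_lt]
    constructor <;> linarith)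
  have h1 : s ≤ D.thr (F.V p) := le_csSup (bddAbove_thr_set _) ⟨hsI, hgood⟩
  have h2 : D.thr (F.V p) < s := lt_min h (by linarith)
  linarith

variable {V : ℝ → Arr N} {lam : ℝ}

/-- A test vector bounds good values of `λ`. -/
lemma le_of_test (hV : Pot D V) (hl : lam ∈ Icc D.low D.top) (hg : Good D V lam)
    {v dv : ℝ → Fin N → ℝ} (hv : ∀ x ∈ Icc D.a D.b, HasDerivWithinAt v (dv x) (Icc D.a D.b) x)
    (hdv : ContinuousOn dv (Icc D.a D.b)) :
    lam * ∫ x in D.a..D.b, nsq (v x) ≤
      (∫ x in D.a..D.b, (nsq (dv x) + ∑ i, D.k2 i * v x i ^ 2 - qf (V x) (v x))) +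
        ∑ i, D.rate lam i * (v D.a i ^ 2 + v D.b i ^ 2) := by
  set M := D.sol V lam with hM
  set φ := fun x => qf (M x) (v x) with hφ
  set ψ := fun x => ∑ i, (dv x i * ∑ l, M x i l * v x l +
    v x i * ∑ l, ((D.field V lam x (M x)) i l * v x l + M x i l * dv x l)) with hψ
  have hvc : ContinuousOn v (Icc D.a D.b) := fun x hx => (hv x hx).continuousWithinAt
  have hMc : ContinuousOn M (Icc D.a D.b) := sol_continuousOn hV hl
  have hder : ∀ x ∈ Icc D.a D.b, HasDerivWithinAt φ (ψ x) (Icc D.a D.b) x := fun x hx =>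
    HasDerivWithinAt.fun_sum fun i _ => (hasDerivWithinAt_pi.1 (hv x hx) i).mul
      (HasDerivWithinAt.fun_sum fun l _ =>
        (hasDeriv_entry ((sol_spec hV hl).2 x hx) i l).mul (hasDerivWithinAt_pi.1 (hv x hx) l))
  have hpt : ∀ x ∈ Icc D.a D.b, lam * nsq (v x) + ψ x ≤
      nsq (dv x) + ∑ i, D.k2 i * v x i ^ 2 - qf (V x) (v x) := by
    intro x hx
    have hs := sol_symm hV hl hx
    have hclip : ∀ j l, D.clip (M x j l) = M x j l := clip_sol hV hl hx (good_lower hV hl hg hx)
    have e1 : ψ x = qf (D.field V lam x (M x)) (v x) + 2 * ∑ i, dv x i * ∑ l, M x i l * v x l := by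
      simp only [hψ, qf, Finset.sum_add_distrib, mul_add, two_mul]
      have : ∑ i, v x i * ∑ l, M x i l * dv x l = ∑ i, dv x i * ∑ l, M x i l * v x l := by
        simp only [Finset.mul_sum]
        rw [Finset.sum_comm]
        exact Finset.sum_congr rfl fun i _ => Finset.sum_congr rfl fun l _ => by
          rw [hM, hs l i]; ring
      linarith
    have e2 : nsq (dv x) - 2 * ∑ i, dv x i * ∑ l, M x i l * v x l + ∑ j, (∑ l, M x j l * v x l) ^ 2
        = ∑ i, (dv x i - ∑ l, M x i l * v x l) ^ 2 := by
      simp only [nsq, Finset.mul_sum, ← Finset.sum_sub_distrib, ← Finset.sum_add_distrib]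
      refine Finset.sum_congr rfl fun i _ => ?_
      rw [← Finset.mul_sum, ← Finset.mul_sum]
      ring
    have e3 : ∑ i, (D.k2 i - lam) * v x i ^ 2 = (∑ i, D.k2 i * v x i ^ 2) - lam * nsq (v x) := by
      simp only [sub_mul, Finset.sum_sub_distrib, nsq, Finset.mul_sum]
    have e4 : qf (D.field V lam x (M x)) (v x) = ∑ i, (D.k2 i - lam) * v x i ^ 2 -
        ∑ j, (∑ l, M x j l * v x l) ^ 2 - qf (V x) (v x) := by
      rw [hM, qf_field hV hl hx]
      simp only [← hM, hclip]
    linarith [Finset.sum_nonneg fun i (_ : i ∈ Finset.univ) =>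
      sq_nonneg (dv x i - ∑ l, M x i l * v x l)]
  have hfield : ContinuousOn (fun x => D.field V lam x (M x)) (Icc D.a D.b) := by
    refine (continuousOn_const.sub ?_).sub hV.cont
    refine continuousOn_pi.2 fun i => continuousOn_pi.2 fun l => ?_
    simp only [Box.sq, clip]
    fun_prop
  have hψc : ContinuousOn ψ (Icc D.a D.b) := by
    simp only [hψ]
    refine continuousOn_finsetSum _ fun i _ => ?_
    fun_prop
  have hnc : ContinuousOn (fun x => nsq (v x)) (Icc D.a D.b) := by
    simp only [nsq]; fun_prop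
  have hrc : ContinuousOn (fun x => nsq (dv x) + ∑ i, D.k2 i * v x i ^ 2 - qf (V x) (v x))
      (Icc D.a D.b) := by
    have := hV.cont
    simp only [nsq, qf]
    fun_prop
  have hI : IntervalIntegrable ψ volume D.a D.b := hψc.intervalIntegrable_of_Icc D.hab
  have hInt : ∫ x in D.a..D.b, ψ x = φ D.b - φ D.a :=
    intervalIntegral.integral_eq_sub_of_hasDerivAt_of_le D.hab
      (fun x hx => (hder x hx).continuousWithinAt)
      (fun x hx => (hder x (Ioo_subset_Icc_self hx)).hasDerivAt (Icc_mem_nhds hx.1 hx.2)) hI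
  have hmono := intervalIntegral.integral_mono_on D.hab
    (((hnc.intervalIntegrable_of_Icc D.hab).const_mul lam).add hI)
    (hrc.intervalIntegrable_of_Icc D.hab) hpt
  rw [intervalIntegral.integral_add ((hnc.intervalIntegrable_of_Icc D.hab).const_mul lam) hI,
    intervalIntegral.integral_const_mul, hInt] at hmono
  have ha : φ D.a = ∑ i, D.rate lam i * v D.a i ^ 2 := by
    simp only [hφ, hM, (sol_spec hV hl).1, qf_dia]
  have hb := hg (v D.b)
  simp only [mul_add, Finset.sum_add_distrib]
  simp only [hφ, hM] at hmono hb ha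
  linarith

/-- The solution stays below its initial value. -/
lemma sol_le_rate (hV : Pot D V) (hl : lam ∈ Icc D.low D.top) (hg : Good D V lam) {x : ℝ}
    (hx : x ∈ Icc D.a D.b) (u : Fin N → ℝ) :
    qf (D.sol V lam x) u ≤ ∑ i, D.rate lam i * u i ^ 2 := by
  refine le_of_forall_pos_le_add fun ε hε => ?_
  obtain ⟨e, he, hle⟩ : ∃ e > 0, e * nsq u ≤ ε :=
    ⟨ε / (nsq u + 1), div_pos hε (by linarith [nsq_nonneg u]), by
      rw [div_mul_eq_mul_div, div_le_iff₀ (by linarith [nsq_nonneg u])]
      exact mul_le_mul_of_nonneg_left (by linarith) hε.le⟩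
  have hpos := qf_pos_propagate (a := D.a) (b := D.b)
    (D := fun y => dia (fun i => D.rate lam i + e) - D.sol V lam y)
    (D' := fun y => 0 - D.field V lam y (D.sol V lam y))
    (fun y hy => (hasDerivWithinAt_const _ _ _).sub ((sol_spec hV hl).2 y hy))
    (fun w hw => by
      rw [qf_sub, (sol_spec hV hl).1, qf_dia, qf_dia, ← Finset.sum_sub_distrib]
      have : ∀ i, (D.rate lam i + e) * w i ^ 2 - D.rate lam i * w i ^ 2 = e * w i ^ 2 :=
        fun i => by ring
      simp only [this, ← Finset.mul_sum]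
      exact mul_pos he (nsq_pos hw))
    (fun t ht hnn w hw h0 => by
      have htI : t ∈ Icc D.a D.b := Ioc_subset_Icc_self ht
      have hsym : ∀ i l, (dia (fun i => D.rate lam i + e) - D.sol V lam t) i l =
          (dia (fun i => D.rate lam i + e) - D.sol V lam t) l i := fun i l => by
        simp only [Pi.sub_apply, dia_symm _ i l, sol_symm hV hl htI i l]
      have hker := kernel_of_qf_eq_zero hsym (hnn t (right_mem_Icc.2 ht.1.le)) h0
      rw [qf_sub, qf_field hV hl htI]
      simp only [clip_sol hV hl htI (good_lower hV hl hg htI)]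
      have e1 : ∀ j, ∑ l, D.sol V lam t j l * w l = (D.rate lam j + e) * w j := fun j => by
        have := hker j
        simp only [Pi.sub_apply, sub_mul, Finset.sum_sub_distrib, sum_dia] at this
        linarith
      simp only [e1]
      have h2 : ∑ i, (D.k2 i - lam) * w i ^ 2 < ∑ j, ((D.rate lam j + e) * w j) ^ 2 := by
        obtain ⟨i, hi⟩ := Function.ne_iff.1 hw
        have hterm : ∀ j, ((D.rate lam j + e) * w j) ^ 2 =
            (D.k2 j - lam) * w j ^ 2 + (2 * e * D.rate lam j + e ^ 2) * w j ^ 2 := fun j => by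
          rw [← D.rate_sq hl j]; ring
        simp only [hterm, Finset.sum_add_distrib]
        refine lt_add_of_pos_right _ (Finset.sum_pos' (fun j _ => mul_nonneg ?_ (sq_nonneg _))
          ⟨i, Finset.mem_univ i, mul_pos ?_ (lt_of_le_of_ne (sq_nonneg _)
            (Ne.symm (pow_ne_zero 2 hi)))⟩)
        · have := D.rate_nonneg lam j; positivity
        · have := D.rate_nonneg lam i; positivity
      have hz : qf (0 : Arr N) w = 0 := by simp [qf]
      linarith [hV.psd t htI w])
  by_cases hu : u = 0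
  · subst hu; simp [qf]; linarith
  · have := hpos x hx u hu
    rw [qf_sub, qf_dia] at this
    simp only [add_mul, Finset.sum_add_distrib, ← Finset.mul_sum] at this
    simp only [nsq] at hle
    linarith

/-- When the mismatch vanishes the solution also stays above minus the rates. -/
lemma neg_rate_le_sol (hV : Pot D V) (hl : lam ∈ Icc D.low D.top)
    (h0 : D.mis V lam = 0) {x : ℝ} (hx : x ∈ Icc D.a D.b) (u : Fin N → ℝ) :
    -(∑ i, D.rate lam i * u i ^ 2) ≤ qf (D.sol V lam x) u := by
  have hr : ∀ y ∈ Icc D.a D.b, D.a + D.b - y ∈ Icc D.a D.b := fun y hy =>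
    ⟨by linarith [hy.2], by linarith [hy.1]⟩
  have hb : D.sol V lam D.b = -dia (D.rate lam) := eq_neg_of_add_eq_zero_left h0
  set W := fun y => V (D.a + D.b - y) with hWdef
  have hW : Pot D W := pot_reverse hV
  set M := fun y => -D.sol V lam (D.a + D.b - y) with hMdef
  have hM0 : M D.a = dia (D.rate lam) := by simp [hMdef, hb]
  have hMd : ∀ y ∈ Icc D.a D.b, HasDerivWithinAt M (D.field W lam y (M y)) (Icc D.a D.b) y := by
    intro y hy
    have h1 : HasDerivWithinAt (fun z : ℝ => D.a + D.b - z) (-1) (Icc D.a D.b) y :=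
      (hasDerivWithinAt_id y _).const_sub _
    refine ((((sol_spec hV hl).2 _ (hr y hy)).scomp y h1 hr).neg).congr_deriv ?_
    have hsq : D.sq (M y) = D.sq (D.sol V lam (D.a + D.b - y)) := by
      funext i l
      simp only [Box.sq, hMdef, Pi.neg_apply, clip_neg, neg_mul_neg]
    simp only [field, hsq, hWdef, neg_smul, one_smul, neg_neg]
  have heq : ∀ y ∈ Icc D.a D.b, M y = D.sol W lam y := fun y hy => sol_unique hW hl hM0 hMd hy
  have hg' : Good D W lam := by
    intro w
    rw [← heq D.b (right_mem_Icc.2 D.hab)]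
    simp only [hMdef, add_sub_cancel_right, qf_neg, (sol_spec hV hl).1, qf_dia]
    simp
  have h1 := sol_le_rate hW hl hg' (hr x hx) u
  rw [← heq _ (hr x hx), hMdef] at h1
  simp only [sub_sub_cancel, qf_neg] at h1
  linarith

end Box

end Vale.Agent.P371.Lift
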