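import Mathlib
import Vale.Agent.P371.Lift.ExistsZero
import Vale.Agent.P371.Lift.Threshold
import Vale.Agent.P371.Lift.Polar
import Vale.Agent.P371.Lift.Hyp

/-!
P371 (lifting lemma): the trial vectors attached to a parameter, the compressed potential, and the
bound on the threshold that these vectors give.
-/

open Finset Set MeasureTheory Matrix
open scoped Topology MatrixOrder

namespace Vale.Agent.P371.Lift

variable {N m : ℕ}

/-- The parameters. -/
abbrev Param (N : ℕ) := paramSet N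

/-- The coefficient of `ψ i` in trial function `j`. -/
def coef (p : Crd N → ℝ) (j i : Fin N) : ℝ :=
  if h : i ≤ j then p (.inl ⟨j, ⟨i, Nat.lt_succ_of_le h⟩⟩) else 0

/-- The stick-breaking fractions. -/
def stick (p : Crd N → ℝ) (r : ℕ) : ℝ := if h : r < N - 1 then p (.inr ⟨r, h⟩) else 1

/-- The weight of channel `l`. -/
def weight (p : Crd N → ℝ) (l : ℕ) : ℝ := stick p l * ∏ r ∈ range l, (1 - stick p r)

/-- The trial vectors, as the columns of a matrix. -/
def trial (p : Crd N → ℝ) (f : Fin N → ℝ → Fin m → ℝ) (x : ℝ) : Matrix (Fin N) (Fin m) ℝ :=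
  Matrix.of fun j μ => weight p j * comb (coef p j) f x μ

/-- The compressed potential. -/
noncomputable def compPot (δ : ℝ) (W : ℝ → Matrix (Fin m) (Fin m) ℝ) (ψ : Fin N → ℝ → Fin m → ℝ)
    (p : Crd N → ℝ) (x : ℝ) : Arr N :=
  fun i l => (polar δ (trial p ψ x) * W x * (polar δ (trial p ψ x))ᵀ) i l

lemma sum_coef_sq {p : Crd N → ℝ} (hp : p ∈ paramSet N) (j : Fin N) :
    1 ≤ ∑ i, coef p j i ^ 2 := by
  obtain ⟨a, ha⟩ := hp.2.1 j
  have hle : (a : ℕ) ≤ (j : ℕ) := Nat.lt_succ_iff.1 a.isLt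
  have h := Finset.single_le_sum (fun i _ => sq_nonneg (coef p j i))
    (Finset.mem_univ (⟨(a : ℕ), lt_of_le_of_lt hle j.isLt⟩ : Fin N))
  refine le_trans (le_of_eq ?_) h
  have hle' : (⟨(a : ℕ), lt_of_le_of_lt hle j.isLt⟩ : Fin N) ≤ j := hle
  simp only [coef, dif_pos hle', Fin.eta]
  rw [← sq_abs, ha, one_pow]

lemma coef_eq_zero (p : Crd N → ℝ) {i j : Fin N} (h : j < i) : coef p j i = 0 :=
  dif_neg (not_le.2 h)

lemma stick_mem {p : Crd N → ℝ} (hp : p ∈ paramSet N) (r : ℕ) : stick p r ∈ Icc (0 : ℝ) 1 := by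
  simp only [stick]
  split_ifs with h
  · exact hp.2.2 _
  · exact ⟨zero_le_one, le_rfl⟩

lemma weight_nonneg {p : Crd N → ℝ} (hp : p ∈ paramSet N) (l : ℕ) : 0 ≤ weight p l :=
  mul_nonneg (stick_mem hp l).1 (Finset.prod_nonneg fun r _ => sub_nonneg.2 (stick_mem hp r).2)

lemma sum_weight (p : Crd N → ℝ) :
    ∀ n, ∑ l ∈ range n, weight p l = 1 - ∏ r ∈ range n, (1 - stick p r)
  | 0 => by simp
  | n + 1 => by
      rw [Finset.sum_range_succ, Finset.prod_range_succ, sum_weight p n, weight]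
      ring

lemma exists_weight_ge {p : Crd N → ℝ} (hN : 0 < N) : ∃ l : Fin N, 1 / (N : ℝ) ≤ weight p l := by
  have h1 : ∑ l ∈ range N, weight p l = 1 := by
    rw [sum_weight, Finset.prod_eq_zero (Finset.mem_range.2 (show N - 1 < N by omega)), sub_zero]
    simp [stick]
  by_contra hno
  push Not at hno
  have hN' : (0 : ℝ) < N := by exact_mod_cast hN
  have := Finset.sum_lt_sum_of_nonempty (s := range N) ⟨0, by simp [hN]⟩
    (f := fun l => weight p l) (g := fun _ => 1 / (N : ℝ))
    fun l hl => hno ⟨l, Finset.mem_range.1 hl⟩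
  simp only [h1, Finset.sum_const, Finset.card_range, nsmul_eq_mul] at this
  rw [mul_one_div_cancel hN'.ne'] at this
  exact lt_irrefl _ this

lemma continuous_coef (j i : Fin N) : Continuous fun p : Crd N → ℝ => coef p j i := by
  unfold coef
  split_ifs
  · exact continuous_apply _
  · exact continuous_const

lemma continuous_weight (l : ℕ) : Continuous fun p : Crd N → ℝ => weight p l := by
  have h : ∀ r, Continuous fun p : Crd N → ℝ => stick p r := fun r => by
    unfold stick
    split_ifs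
    · exact continuous_apply _
    · exact continuous_const
  unfold weight
  exact (h l).mul (continuous_finsetProd _ fun r _ => continuous_const.sub (h r))

lemma qf_eq_dot (A : Matrix (Fin N) (Fin N) ℝ) (u : Fin N → ℝ) :
    qf (fun i l => A i l) u = u ⬝ᵥ A *ᵥ u := by
  simp [qf, dotProduct, mulVec]

variable {a b : ℝ} {W : ℝ → Matrix (Fin m) (Fin m) ℝ} {ψ dψ : Fin N → ℝ → Fin m → ℝ}
  {k : Fin N → ℝ} (h : LiftData a b W ψ dψ k) {δ : ℝ}
include h

lemma LiftData.psiCont (j : Fin N) : ContinuousOn (ψ j) (Icc a b) :=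
  fun x hx => (h.deriv j x hx).continuousWithinAt

lemma continuous_compPot (hδ : 0 < δ) :
    Continuous fun q : (Crd N → ℝ) × Icc a b => compPot δ W ψ q.1 q.2 := by
  have hψ : ∀ i μ, Continuous fun x : Icc a b => ψ i x μ := fun i μ =>
    (continuous_apply μ).comp (h.psiCont i).domRestrict
  have hW : Continuous fun x : Icc a b => W x :=
    continuous_matrix fun μ μ' => (h.potCont μ μ').domRestrict
  have hZ : Continuous fun q : (Crd N → ℝ) × Icc a b => trial q.1 ψ q.2 := by
    refine continuous_matrix fun j μ => ?_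
    simp only [trial, Matrix.of_apply, comb]
    exact ((continuous_weight _).comp continuous_fst).mul (continuous_finsetSum _ fun i _ =>
      ((continuous_coef j i).comp continuous_fst).mul ((hψ i μ).comp continuous_snd))
  have hR : Continuous fun q : (Crd N → ℝ) × Icc a b => polar δ (trial q.1 ψ q.2) :=
    (continuous_polar hδ).comp hZ
  have hV := (hR.matrix_mul (hW.comp continuous_snd)).matrix_mul hR.matrix_transpose
  exact continuous_pi fun i => continuous_pi fun l => hV.matrix_elem i l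

lemma posSemidef_compPot (p : Crd N → ℝ) {x : ℝ} (hx : x ∈ Icc a b) :
    (polar δ (trial p ψ x) * W x * (polar δ (trial p ψ x))ᵀ).PosSemidef := by
  simpa [conjTranspose_eq_transpose_of_trivial] using
    (h.potPos x hx).mul_mul_conjTranspose_same (polar δ (trial p ψ x))

lemma exists_bound (hδ : 0 < δ) :
    ∃ B, 0 ≤ B ∧ ∀ p ∈ paramSet N, ∀ x ∈ Icc a b, ‖compPot δ W ψ p x‖ ≤ B := by
  have : CompactSpace (Icc a b) := isCompact_iff_compactSpace.1 isCompact_Icc
  obtain ⟨B, hB⟩ := ((isCompact_paramSet N).prod (isCompact_univ (X := Icc a b))).exists_bound_of_continuousOn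
    (continuous_compPot h hδ).continuousOn
  exact ⟨max B 0, le_max_right _ _, fun p hp x hx =>
    (hB (p, ⟨x, hx⟩) ⟨hp, Set.mem_univ _⟩).trans (le_max_left _ _)⟩

lemma continuousOn_compPot (hδ : 0 < δ) (p : Crd N → ℝ) :
    ContinuousOn (compPot δ W ψ p) (Icc a b) := by
  rw [continuousOn_iff_continuous_domRestrict]
  exact Continuous.comp (g := fun q : (Crd N → ℝ) × Icc a b => compPot δ W ψ q.1 q.2)
    (f := fun x : Icc a b => ((p, x) : (Crd N → ℝ) × Icc a b)) (continuous_compPot h hδ)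
    (continuous_const.prodMk continuous_id)

lemma pot_compPot (hδ : 0 < δ) (D : Box N) (ha : D.a = a) (hb : D.b = b) (p : Crd N → ℝ)
    (hB : ∀ x ∈ Icc a b, ‖compPot δ W ψ p x‖ ≤ D.B) : Pot D (compPot δ W ψ p) := by
  refine ⟨?_, fun x hx i l => ?_, fun x hx u => ?_, fun x hx => ?_⟩
  · rw [ha, hb]
    exact continuousOn_compPot h hδ p
  · rw [ha, hb] at hx
    have := (posSemidef_compPot h (δ := δ) p hx).1.apply l i
    simpa [compPot] using this
  · rw [ha, hb] at hx
    unfold compPot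
    rw [qf_eq_dot]
    simpa using (posSemidef_compPot h (δ := δ) p hx).dotProduct_mulVec_nonneg u
  · rw [ha, hb] at hx
    exact hB x hx

lemma eventually_compPot (hδ : 0 < δ) (p : Param N) (ε : ℝ) (hε : 0 < ε) :
    ∀ᶠ q : Param N in 𝓝 p, ∀ x ∈ Icc a b,
      dist (compPot δ W ψ q.1 x) (compPot δ W ψ p.1 x) ≤ ε := by
  have : CompactSpace (Icc a b) := isCompact_iff_compactSpace.1 isCompact_Icc
  let G : (Crd N → ℝ) × Icc a b → Arr N := fun q => compPot δ W ψ q.1 q.2
  have hG : Continuous G := continuous_compPot h hδ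
  have h1 : Continuous fun z : Param N × Icc a b => G (z.1.1, z.2) :=
    hG.comp ((continuous_subtype_val.comp continuous_fst).prodMk continuous_snd)
  have h2 : Continuous fun z : Param N × Icc a b => G (p.1, z.2) :=
    hG.comp (continuous_const.prodMk continuous_snd)
  have hg : Continuous fun z : Param N × Icc a b => dist (G (z.1.1, z.2)) (G (p.1, z.2)) :=
    h1.dist h2
  have hev := (isCompact_univ (X := Icc a b)).eventually_forall_of_forall_eventually (x₀ := p)
    (P := fun (q : Param N) (x : Icc a b) => dist (G (q.1, x)) (G (p.1, x)) ≤ ε) fun x _ =>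
      (hg.continuousAt (x := (p, x))).eventually (eventually_le_nhds (by show dist _ _ < ε; rw [dist_self]; exact hε))
  filter_upwards [hev] with q hq x hx
  exact hq ⟨x, hx⟩ (Set.mem_univ _)

/-- The potentials on a box form a continuous family. -/
noncomputable def potFam (hδ : 0 < δ) (D : Box N) (ha : D.a = a) (hb : D.b = b)
    (hB : ∀ p ∈ paramSet N, ∀ x ∈ Icc a b, ‖compPot δ W ψ p x‖ ≤ D.B) :
    Box.Fam D (Param N) where
  V p := compPot δ W ψ p.1
  pot p := pot_compPot h hδ D ha hb p.1 (hB p.1 p.2)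
  cont p ε hε := by
    rw [ha, hb]
    exact eventually_compPot h hδ p ε hε

omit h in
lemma trace_ident (p : Crd N → ℝ) (x : ℝ) :
    ((trial p ψ x)ᵀ * (polar δ (trial p ψ x) * W x * (polar δ (trial p ψ x))ᵀ) *
      trial p ψ x).trace = ∑ μ, qf (compPot δ W ψ p x) (fun j => trial p ψ x j μ) := by
  simp only [Matrix.trace, Matrix.diag, qf, compPot]
  refine Finset.sum_congr rfl fun μ _ => ?_
  rw [Matrix.mul_assoc, Matrix.mul_apply]
  refine Finset.sum_congr rfl fun i _ => ?_
  rw [Matrix.transpose_apply, Matrix.mul_apply]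

omit h in
lemma trace_gram (p : Crd N → ℝ) (x : ℝ) :
    (W x * ((trial p ψ x)ᵀ * trial p ψ x)).trace = ∑ j : Fin N, weight p j ^ 2 *
      ∑ μ, ∑ μ', comb (coef p j) ψ x μ * W x μ μ' * comb (coef p j) ψ x μ' := by
  simp only [Matrix.trace, Matrix.diag, Matrix.mul_apply, Matrix.transpose_apply, trial,
    Matrix.of_apply, Finset.mul_sum]
  rw [Finset.sum_congr rfl fun μ _ => Finset.sum_comm, Finset.sum_comm]
  exact Finset.sum_congr rfl fun j _ => Finset.sum_congr rfl fun μ _ =>
    Finset.sum_congr rfl fun μ' _ => by ring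

/-- The test vectors bound every good value of `λ`. -/
theorem good_le {D : Box N} (hδ : 0 < δ) (ha : D.a = a) (hb : D.b = b)
    (hk : ∀ i, D.k2 i = k i ^ 2) {p : Crd N → ℝ}
    (hV : Pot D (compPot δ W ψ p)) {lam : ℝ} (hl : lam ∈ Icc D.low D.top) (h0 : 0 ≤ lam)
    (hg : Box.Good D (compPot δ W ψ p) lam) :
    lam * ∑ j : Fin N, weight p j ^ 2 * ∫ x in a..b, ∑ μ, comb (coef p j) ψ x μ ^ 2 ≤
      δ * ∫ x in a..b, (W x).trace := by
  obtain ⟨hab, hWc, -, hψd, hdψc, hkp, -, hform⟩ := id h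
  have hψc := h.psiCont
  set c := fun j : Fin N => coef p j
  set w := fun j : Fin N => weight p j
  have htest := fun μ => Box.le_of_test hV hl hg (v := fun x j => w j * comb (c j) ψ x μ)
    (dv := fun x j => w j * comb (c j) dψ x μ)
    (fun x hx => by
      rw [ha, hb] at hx ⊢
      refine hasDerivWithinAt_pi.2 fun j => (HasDerivWithinAt.fun_sum fun i _ =>
        (hasDerivWithinAt_pi.1 (hψd i x hx) μ).const_mul _).const_mul _)
    (by
      rw [ha, hb]
      simp only [comb]
      fun_prop)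
  simp only [ha, hb, hk, nsq] at htest
  have hS := Finset.sum_le_sum fun μ (_ : μ ∈ (Finset.univ : Finset (Fin m))) => htest μ
  have hVc : ContinuousOn (compPot δ W ψ p) (Icc a b) := by
    have := hV.cont; rwa [ha, hb] at this
  have hcc : ∀ j μ, ContinuousOn (fun x => comb (c j) ψ x μ) (Icc a b) := fun j μ => by
    simp only [comb]; fun_prop
  have hdc : ∀ j μ, ContinuousOn (fun x => comb (c j) dψ x μ) (Icc a b) := fun j μ => by
    simp only [comb]; fun_prop
  have iA : ∀ j, IntervalIntegrable (fun x => ∑ μ, comb (c j) ψ x μ ^ 2) volume a b := fun j =>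
    ContinuousOn.intervalIntegrable_of_Icc hab (by fun_prop)
  have iB : ∀ j, IntervalIntegrable (fun x => (∑ μ, comb (c j) dψ x μ ^ 2) -
      ∑ μ, ∑ μ', comb (c j) ψ x μ * W x μ μ' * comb (c j) ψ x μ') volume a b := fun j =>
    ContinuousOn.intervalIntegrable_of_Icc hab (by fun_prop)
  have iW : IntervalIntegrable (fun x => (W x).trace) volume a b :=
    ContinuousOn.intervalIntegrable_of_Icc hab (by simp only [Matrix.trace, Matrix.diag]; fun_prop)
  have iμ : ∀ μ, IntervalIntegrable (fun x => ∑ j, (w j * comb (c j) ψ x μ) ^ 2) volume a b :=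
    fun μ => ContinuousOn.intervalIntegrable_of_Icc hab (by fun_prop)
  have iQ : ∀ μ, IntervalIntegrable (fun x => ∑ j, (w j * comb (c j) dψ x μ) ^ 2 +
      ∑ j, k j ^ 2 * (w j * comb (c j) ψ x μ) ^ 2 -
      qf (compPot δ W ψ p x) (fun j => w j * comb (c j) ψ x μ)) volume a b := fun μ =>
    ContinuousOn.intervalIntegrable_of_Icc hab (by simp only [qf]; fun_prop)
  rw [← Finset.mul_sum, ← intervalIntegral.integral_finsetSum fun μ _ => iμ μ,
    Finset.sum_add_distrib, ← intervalIntegral.integral_finsetSum fun μ _ => iQ μ] at hS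
  have eL : ∫ x in a..b, ∑ μ, ∑ j, (w j * comb (c j) ψ x μ) ^ 2 =
      ∑ j, w j ^ 2 * ∫ x in a..b, ∑ μ, comb (c j) ψ x μ ^ 2 := by
    simp only [← intervalIntegral.integral_const_mul]
    rw [← intervalIntegral.integral_finsetSum fun j _ => (iA j).const_mul _]
    congr 1
    funext x
    rw [Finset.sum_comm]
    simp only [mul_pow, Finset.mul_sum]
  rw [eL] at hS
  have hpt : ∀ x ∈ Icc a b, (∑ μ, (∑ j, (w j * comb (c j) dψ x μ) ^ 2 +
        ∑ j, k j ^ 2 * (w j * comb (c j) ψ x μ) ^ 2 -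
        qf (compPot δ W ψ p x) (fun j => w j * comb (c j) ψ x μ))) ≤
      (∑ j, w j ^ 2 * (((∑ μ, comb (c j) dψ x μ ^ 2) -
        ∑ μ, ∑ μ', comb (c j) ψ x μ * W x μ μ' * comb (c j) ψ x μ') +
        k j ^ 2 * ∑ μ, comb (c j) ψ x μ ^ 2)) + δ * (W x).trace := by
    intro x hx
    have h1 := trace_polar hδ (trial p ψ x) (h.potPos x hx)
    rw [trace_ident, trace_gram] at h1
    simp only [trial, Matrix.of_apply] at h1
    have e : (∑ μ, (∑ j, (w j * comb (c j) dψ x μ) ^ 2 +
          ∑ j, k j ^ 2 * (w j * comb (c j) ψ x μ) ^ 2)) =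
        ∑ j, w j ^ 2 * ((∑ μ, comb (c j) dψ x μ ^ 2) + k j ^ 2 * ∑ μ, comb (c j) ψ x μ ^ 2) := by
      simp only [mul_pow, mul_add, Finset.sum_add_distrib, Finset.mul_sum]
      rw [Finset.sum_comm, add_right_inj, Finset.sum_comm]
      exact Finset.sum_congr rfl fun j _ => Finset.sum_congr rfl fun μ _ => by ring
    simp only [Finset.sum_sub_distrib, e]
    simp only [mul_add, mul_sub, Finset.sum_add_distrib, Finset.sum_sub_distrib]
    simp only [w, c] at h1 ⊢
    linarith
  have i2 : IntervalIntegrable (fun x => (∑ j, w j ^ 2 * (((∑ μ, comb (c j) dψ x μ ^ 2) -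
        ∑ μ, ∑ μ', comb (c j) ψ x μ * W x μ μ' * comb (c j) ψ x μ') +
        k j ^ 2 * ∑ μ, comb (c j) ψ x μ ^ 2)) + δ * (W x).trace) volume a b :=
    ContinuousOn.intervalIntegrable_of_Icc hab (by simp only [Matrix.trace, Matrix.diag]; fun_prop)
  have iQs : IntervalIntegrable (fun x => ∑ μ, (∑ j, (w j * comb (c j) dψ x μ) ^ 2 +
        ∑ j, k j ^ 2 * (w j * comb (c j) ψ x μ) ^ 2 -
        qf (compPot δ W ψ p x) (fun j => w j * comb (c j) ψ x μ))) volume a b :=
    ContinuousOn.intervalIntegrable_of_Icc hab (by simp only [qf]; fun_prop)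
  have hI := intervalIntegral.integral_mono_on hab iQs i2 hpt
  rw [intervalIntegral.integral_add _ (iW.const_mul δ), intervalIntegral.integral_const_mul,
    intervalIntegral.integral_finsetSum fun j _ => ((iB j).add ((iA j).const_mul _)).const_mul _]
    at hI
  · simp only [intervalIntegral.integral_const_mul] at hI
    have e3 : ∀ j, ∫ x in a..b, (((∑ μ, comb (c j) dψ x μ ^ 2) -
        ∑ μ, ∑ μ', comb (c j) ψ x μ * W x μ μ' * comb (c j) ψ x μ') +
        k j ^ 2 * ∑ μ, comb (c j) ψ x μ ^ 2) =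
        (∫ x in a..b, ((∑ μ, comb (c j) dψ x μ ^ 2) -
          ∑ μ, ∑ μ', comb (c j) ψ x μ * W x μ μ' * comb (c j) ψ x μ')) +
        k j ^ 2 * ∫ x in a..b, ∑ μ, comb (c j) ψ x μ ^ 2 := fun j => by
      rw [intervalIntegral.integral_add (iB j) ((iA j).const_mul _),
        intervalIntegral.integral_const_mul]
    simp only [e3] at hI
    have hrate : ∀ j, D.rate lam j ≤ k j := fun j => by
      rw [Box.rate, hk, Real.sqrt_le_left (hkp j).le]
      linarith
    have hB : (∑ μ, ∑ j, D.rate lam j *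
          ((w j * comb (c j) ψ a μ) ^ 2 + (w j * comb (c j) ψ b μ) ^ 2)) ≤
        ∑ j, w j ^ 2 * (k j * (∑ μ, comb (c j) ψ a μ ^ 2 + ∑ μ, comb (c j) ψ b μ ^ 2)) := by
      rw [Finset.sum_comm]
      refine Finset.sum_le_sum fun j _ => ?_
      simp only [mul_add, Finset.mul_sum, ← Finset.sum_add_distrib]
      refine Finset.sum_le_sum fun μ _ => ?_
      have := mul_le_mul_of_nonneg_right (hrate j)
        (add_nonneg (sq_nonneg (w j * comb (c j) ψ a μ)) (sq_nonneg (w j * comb (c j) ψ b μ)))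
      calc _ = D.rate lam j * ((w j * comb (c j) ψ a μ) ^ 2 + (w j * comb (c j) ψ b μ) ^ 2) := by
            ring
        _ ≤ _ := this
        _ = _ := by ring
    have hF : ∑ j, w j ^ 2 * ((∫ x in a..b, ((∑ μ, comb (c j) dψ x μ ^ 2) -
          ∑ μ, ∑ μ', comb (c j) ψ x μ * W x μ μ' * comb (c j) ψ x μ')) +
        k j ^ 2 * (∫ x in a..b, ∑ μ, comb (c j) ψ x μ ^ 2) +
        k j * (∑ μ, comb (c j) ψ a μ ^ 2 + ∑ μ, comb (c j) ψ b μ ^ 2)) ≤ 0 :=
      Finset.sum_nonpos fun j _ => mul_nonpos_of_nonneg_of_nonpos (sq_nonneg _)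
        (hform j (c j) fun i hi => coef_eq_zero p hi)
    simp only [mul_add, Finset.sum_add_distrib] at hI hB hF hS ⊢
    linarith
  · exact ContinuousOn.intervalIntegrable_of_Icc hab (by fun_prop)

end Vale.Agent.P371.Lift
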