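import Mathlib
import Vale.Agent.P371.Lift.Threshold

/-!
P371 (lifting lemma): behaviour of the Riccati solution under sign changes of the channels, and a
channel the potential does not see.
-/

open Finset Set
open scoped NNReal

namespace Vale.Agent.P371.Lift

variable {N : ℕ}

/-- Conjugation of an array by a diagonal of signs. -/
def conjA (s : Fin N → ℝ) (M : Arr N) : Arr N := fun i l => s i * s l * M i l

lemma qf_conjA (s : Fin N → ℝ) (M : Arr N) (u : Fin N → ℝ) :
    qf (conjA s M) u = qf M fun i => s i * u i := by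
  simp only [qf, conjA, Finset.mul_sum]
  exact Finset.sum_congr rfl fun i _ => Finset.sum_congr rfl fun l _ => by ring

lemma conjA_dia {s : Fin N → ℝ} (hs : ∀ i, s i * s i = 1) (d : Fin N → ℝ) :
    conjA s (dia d) = dia d := by
  funext i l
  by_cases h : i = l
  · subst h; simp [conjA, hs]
  · simp [conjA, dia, h]

namespace Box

variable {D : Box N} {V : ℝ → Arr N} {lam : ℝ} {s : Fin N → ℝ}

lemma clip_sign {c : ℝ} (hc : c = 1 ∨ c = -1) (y : ℝ) : D.clip (c * y) = c * D.clip y := by
  rcases hc with rfl | rfl <;> simp [clip_neg]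

/-- Sign changes commute with the solution. -/
lemma sol_conjA (hV : Pot D V) (hV' : Pot D fun x => conjA s (V x))
    (hl : lam ∈ Icc D.low D.top) (hs : ∀ i, s i = 1 ∨ s i = -1) {x : ℝ} (hx : x ∈ Icc D.a D.b) :
    D.sol (fun x => conjA s (V x)) lam x = conjA s (D.sol V lam x) := by
  have hss : ∀ i, s i * s i = 1 := fun i => by rcases hs i with h | h <;> simp [h]
  refine (sol_unique hV' hl (M := fun y => conjA s (D.sol V lam y)) ?_ ?_ hx).symm
  · rw [(sol_spec hV hl).1, conjA_dia hss]
  · intro y hy
    refine hasDerivWithinAt_pi.2 fun i => hasDerivWithinAt_pi.2 fun l => ?_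
    refine ((hasDeriv_entry ((sol_spec hV hl).2 y hy) i l).const_mul (s i * s l)).congr_deriv ?_
    have hsg : ∀ p q, s p * s q = 1 ∨ s p * s q = -1 := fun p q => by
      rcases hs p with h | h <;> rcases hs q with h' | h' <;> simp [h, h']
    have hd : s i * s l * dia (fun i => D.k2 i - lam) i l = dia (fun i => D.k2 i - lam) i l :=
      congrFun (congrFun (conjA_dia hss _) i) l
    simp only [field, Pi.sub_apply, Box.sq, conjA, mul_sub, hd, clip_sign (hsg _ _)]
    congr 2
    rw [Finset.mul_sum]
    refine Finset.sum_congr rfl fun j _ => ?_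
    linear_combination (norm := ring_nf)
      (-(s i * s l * D.clip (D.sol V lam y i j) * D.clip (D.sol V lam y j l))) * hss j

lemma good_conjA (hV : Pot D V) (hV' : Pot D fun x => conjA s (V x))
    (hl : lam ∈ Icc D.low D.top) (hs : ∀ i, s i = 1 ∨ s i = -1) :
    Good D (fun x => conjA s (V x)) lam ↔ Good D V lam := by
  have hsq : ∀ i, s i ^ 2 = 1 := fun i => by rcases hs i with h | h <;> simp [h]
  have key : ∀ u, qf (D.sol (fun x => conjA s (V x)) lam D.b) u + ∑ i, D.rate lam i * u i ^ 2 =
      qf (D.sol V lam D.b) (fun i => s i * u i) + ∑ i, D.rate lam i * (s i * u i) ^ 2 := by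
    intro u
    rw [sol_conjA hV hV' hl hs (right_mem_Icc.2 D.hab), qf_conjA]
    simp [mul_pow, hsq]
  constructor
  · intro h u
    have := h (fun i => s i * u i)
    rw [key] at this
    have e : ∀ i, s i * (s i * u i) = u i := fun i => by
      rw [← mul_assoc, ← pow_two, hsq, one_mul]
    simpa [e] using this
  · intro h u
    rw [key]
    exact h _

lemma thr_conjA (hV : Pot D V) (hV' : Pot D fun x => conjA s (V x))
    (hs : ∀ i, s i = 1 ∨ s i = -1) : D.thr (fun x => conjA s (V x)) = D.thr V := by
  simp only [thr]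
  congr 1
  ext t
  exact ⟨fun h => ⟨h.1, (good_conjA hV hV' h.1 hs).1 h.2⟩,
    fun h => ⟨h.1, (good_conjA hV hV' h.1 hs).2 h.2⟩⟩

/-- A channel on which the potential vanishes keeps its initial value. -/
lemma sol_free (hV : Pot D V) (hl : lam ∈ Icc D.low D.top) {j : Fin N}
    (hj : ∀ x ∈ Icc D.a D.b, ∀ l, V x j l = 0) {x : ℝ} (hx : x ∈ Icc D.a D.b) :
    D.sol V lam x j j = D.rate lam j := by
  set s : Fin N → ℝ := fun i => if i = j then -1 else 1 with hs'
  have hs : ∀ i, s i = 1 ∨ s i = -1 := fun i => by by_cases h : i = j <;> simp [hs', h]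
  have hVeq : ∀ y ∈ Icc D.a D.b, conjA s (V y) = V y := by
    intro y hy
    funext i l
    by_cases hi : i = j
    · subst hi; simp [conjA, hj y hy l]
    · by_cases hl' : l = j
      · subst hl'; simp [conjA, hV.symm y hy i, hj y hy i]
      · simp [conjA, hs', hi, hl']
  have hV' : Pot D fun y => conjA s (V y) :=
    ⟨hV.cont.congr hVeq, fun y hy i l => by simp only [hVeq y hy, hV.symm y hy i l],
      fun y hy u => by simp only [hVeq y hy]; exact hV.psd y hy u,
      fun y hy => by simp only [hVeq y hy]; exact hV.bound y hy⟩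
  have hsame : ∀ y ∈ Icc D.a D.b, D.sol (fun z => conjA s (V z)) lam y = D.sol V lam y :=
    fun y hy => sol_unique hV hl (sol_spec hV' hl).1 (fun z hz =>
      ((sol_spec hV' hl).2 z hz).congr_deriv (by simp only [field, hVeq z hz])) hy
  have hoff : ∀ y ∈ Icc D.a D.b, ∀ l, l ≠ j → D.sol V lam y j l = 0 := by
    intro y hy l hlj
    have e := congrFun (congrFun ((sol_conjA hV hV' hl hs hy).symm.trans (hsame y hy)) j) l
    simp [conjA, hs', hlj] at e
    linarith
  set M : ℝ → Arr N := fun y i l =>
    if i = j ∧ l = j then D.rate lam j else D.sol V lam y i l with hM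
  have hclip0 : D.clip 0 = 0 := D.clip_eq (by
    rw [abs_zero]; simp only [R]; linarith [D.K_nonneg])
  have hcl : D.clip (D.rate lam j) = D.rate lam j := D.clip_eq (by
    rw [abs_of_nonneg (D.rate_nonneg lam j)]
    simp only [R, K]
    linarith [D.rate_le_sqrt hl j, Real.sqrt_nonneg D.C,
      mul_nonneg (sub_nonneg.2 D.hab) D.C_nonneg])
  have hMM : ∀ y ∈ Icc D.a D.b, M y = D.sol V lam y := by
    intro y hy
    refine sol_unique hV hl ?_ ?_ hy
    · funext i l
      simp only [hM, (sol_spec hV hl).1]
      by_cases h : i = j ∧ l = j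
      · obtain ⟨rfl, rfl⟩ := h; simp [dia]
      · rw [if_neg h]
    · intro z hz
      refine hasDerivWithinAt_pi.2 fun i => hasDerivWithinAt_pi.2 fun l => ?_
      by_cases h : i = j ∧ l = j
      · obtain ⟨hi, hl'⟩ := h
        subst i l
        have e : D.field V lam z (M z) j j = 0 := by
          simp only [field, Pi.sub_apply, Box.sq, hj z hz j, sub_zero]
          rw [Finset.sum_eq_single j]
          · simp only [hM, and_self, if_true, hcl, dia, ← pow_two, D.rate_sq hl]
            ring
          · intro b _ hb
            simp [hM, hb, hoff z hz b hb, hclip0]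
          · simp
        rw [e]
        simp only [hM, and_self, if_true]
        exact hasDerivWithinAt_const _ _ _
      · simp only [hM, if_neg h]
        refine (hasDeriv_entry ((sol_spec hV hl).2 z hz) i l).congr_deriv ?_
        simp only [field, Pi.sub_apply, Box.sq]
        congr 2
        refine Finset.sum_congr rfl fun b _ => ?_
        by_cases hb : b = j
        · subst hb
          have h0 : ∀ i, i ≠ b → D.sol V lam z i b = 0 := fun i hi => by
            rw [sol_symm hV hl hz i b]; exact hoff z hz i hi
          by_cases hi : i = b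
          · have hlb : l ≠ b := fun e => h ⟨hi, e⟩
            simp [hlb, hoff z hz l hlb, hclip0]
          · simp [hi, h0 i hi, hclip0]
        · simp [hb]
  have := congrFun (congrFun (hMM x hx) j) j
  simpa [hM] using this.symm

end Box

end Vale.Agent.P371.Lift
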