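import Mathlib
import Vale.Agent.P371.Lift.Family
import Vale.Agent.P371.Lift.Symmetry

/-!
P371: the lifting lemma. A continuous positive semidefinite potential with a family of functions
of energy at most `-k j ^ 2` is dominated by a matrix Riccati path from `L` to `-L`.
-/

open Finset Set MeasureTheory Matrix
open scoped Topology MatrixOrder

namespace Vale.Agent.P371.Lift

variable {N m : ℕ}

/-- The block signs of a flip as reals. -/
def signs (g : Fin N → ZMod 2) (i : Fin N) : ℝ := (sg (g i) : ℝ)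

lemma signs_pm (g : Fin N → ZMod 2) (i : Fin N) : signs g i = 1 ∨ signs g i = -1 := by
  have : ∀ a : ZMod 2, sg a = 1 ∨ sg a = -1 := by decide
  rcases this (g i) with h | h <;> simp [signs, h]

lemma flipR_mem {p : Crd N → ℝ} (hp : p ∈ paramSet N) (g : Fin N → ZMod 2) :
    flipR g p ∈ paramSet N := by
  have ha : ∀ a : ZMod 2, |(sg a : ℝ)| = 1 := fun a => by exact_mod_cast abs_sg a
  refine ⟨fun q => ?_, fun l => ?_, hp.2.2⟩
  · simpa [flipR, abs_mul, ha] using hp.1 q
  · obtain ⟨i, hi⟩ := hp.2.1 l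
    exact ⟨i, by simpa [flipR, abs_mul, ha] using hi⟩

lemma trial_flip (g : Fin N → ZMod 2) (p : Crd N → ℝ) (ψ : Fin N → ℝ → Fin m → ℝ) (x : ℝ) :
    trial (flipR g p) ψ x = Matrix.diagonal (signs g) * trial p ψ x := by
  ext j μ
  rw [Matrix.diagonal_mul]
  have hc : ∀ i, coef (flipR g p) j i = signs g j * coef p j i := fun i => by
    simp only [coef]
    split_ifs <;> simp [flipR, signs]
  have hw : weight (flipR g p) j = weight p j := rfl
  simp only [trial, Matrix.of_apply, comb, hc, hw, Finset.mul_sum]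
  exact Finset.sum_congr rfl fun i _ => by ring

lemma polar_diag {δ : ℝ} {e : Fin N → ℝ} (he : ∀ i, e i * e i = 1)
    (Z : Matrix (Fin N) (Fin m) ℝ) :
    polar δ (Matrix.diagonal e * Z) = Matrix.diagonal e * polar δ Z := by
  have hg : gram δ (Matrix.diagonal e * Z) = gram δ Z := by
    simp only [gram, Matrix.transpose_mul, Matrix.diagonal_transpose]
    rw [Matrix.mul_assoc, ← Matrix.mul_assoc (Matrix.diagonal e), Matrix.diagonal_mul_diagonal]
    simp [he]
  rw [polar, polar, gramRoot, gramRoot, hg, Matrix.mul_assoc]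

lemma compPot_flip {δ : ℝ} (W : ℝ → Matrix (Fin m) (Fin m) ℝ) (ψ : Fin N → ℝ → Fin m → ℝ)
    (g : Fin N → ZMod 2) (p : Crd N → ℝ) (x : ℝ) :
    compPot δ W ψ (flipR g p) x = conjA (signs g) (compPot δ W ψ p x) := by
  have he : ∀ i, signs g i * signs g i = 1 := fun i => by
    rcases signs_pm g i with h | h <;> simp [h]
  funext i l
  simp only [compPot, conjA, trial_flip, polar_diag he, Matrix.transpose_mul,
    Matrix.diagonal_transpose]
  rw [show Matrix.diagonal (signs g) * polar δ (trial p ψ x) * W x *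
      ((polar δ (trial p ψ x))ᵀ * Matrix.diagonal (signs g)) =
    Matrix.diagonal (signs g) * (polar δ (trial p ψ x) * W x * (polar δ (trial p ψ x))ᵀ) *
      Matrix.diagonal (signs g) by simp only [Matrix.mul_assoc]]
  rw [Matrix.mul_diagonal, Matrix.diagonal_mul]
  ring

lemma compPot_row_zero {δ : ℝ} (W : ℝ → Matrix (Fin m) (Fin m) ℝ) (ψ : Fin N → ℝ → Fin m → ℝ)
    {p : Crd N → ℝ} {j : Fin N} (hj : weight p j = 0) (x : ℝ) (l : Fin N) :
    compPot δ W ψ p x j l = 0 := by
  have hz : ∀ μ, trial p ψ x j μ = 0 := fun μ => by simp [trial, hj]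
  have hR : ∀ μ, polar δ (trial p ψ x) j μ = 0 := fun μ => by simp [polar, Matrix.mul_apply, hz]
  simp [compPot, Matrix.mul_apply, hR]

lemma weight_zero_of_bot {p : Crd N → ℝ} {r : Fin (N - 1)} (h : p (.inr r) = 0) :
    weight p (r : ℕ) = 0 := by
  simp [weight, stick, h]

lemma weight_zero_of_top {p : Crd N → ℝ} {r : Fin (N - 1)} (h : p (.inr r) = 1) {l : ℕ}
    (hl : (r : ℕ) < l) : weight p l = 0 := by
  have : ∏ q ∈ range l, (1 - stick p q) = 0 :=
    Finset.prod_eq_zero (Finset.mem_range.2 hl) (by simp [stick, h])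
  simp [weight, this]

/-- The channel of a cube equation. -/
def boxIdx (r : Fin (N - 1)) : Fin N := ⟨r, by omega⟩

/-- The equations: off-diagonal mismatches and comparisons of normalized diagonal entries. -/
noncomputable def eqns (D : Box N) (V : (Crd N → ℝ) → ℝ → Arr N) : Idx N → (Crd N → ℝ) → ℝ
  | .inl q => fun p => D.mis (V p) (D.thr (V p)) (lower q) q.1
  | .inr r => fun p => ∑ l ∈ Finset.Ioi (boxIdx r),
      (D.mis (V p) (D.thr (V p)) (boxIdx r) (boxIdx r) / D.rate (D.thr (V p)) (boxIdx r) -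
        D.mis (V p) (D.thr (V p)) l l / D.rate (D.thr (V p)) l)

lemma qf_single (M : Arr N) (i : Fin N) : qf M (Pi.single i 1) = M i i := by
  have := qf_pair M 0 i 1
  simpa [qf] using this

/-- The zero of the equations. -/
lemma exists_param {D : Box N} (V : (Crd N → ℝ) → ℝ → Arr N) (F : Box.Fam D (Param N))
    (hF : ∀ p : Param N, F.V p = V p.1)
    (hflip : ∀ g p x, V (flipR g p) x = conjA (signs g) (V p x))
    (hzero : ∀ p j x l, weight p (j : Fin N) = 0 → V p x j l = 0)
    (hthr : ∀ p : Param N, D.thr (V p.1) < D.top) :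
    ∃ p : Param N, D.mis (V p.1) (D.thr (V p.1)) = 0 := by
  have hpot : ∀ p ∈ paramSet N, Pot D (V p) := fun p hp => hF ⟨p, hp⟩ ▸ F.pot ⟨p, hp⟩
  have hmem : ∀ p ∈ paramSet N, D.thr (V p) ∈ Icc D.low D.top := fun p hp =>
    Box.thr_mem (hpot p hp)
  have hgood : ∀ p ∈ paramSet N, Box.Good D (V p) (D.thr (V p)) := fun p hp =>
    hF ⟨p, hp⟩ ▸ Box.good_thr F ⟨p, hp⟩
  set T := fun p => D.thr (V p) with hT
  set A := fun p => D.mis (V p) (T p) with hA
  have hratepos : ∀ p ∈ paramSet N, ∀ i, 0 < D.rate (T p) i := fun p hp i =>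
    Real.sqrt_pos.2 (D.rate_pos (hmem p hp) i)
  have hd2 : ∀ p ∈ paramSet N, ∀ i, A p i i / D.rate (T p) i ≤ 2 := by
    intro p hp i
    have h1 := Box.sol_le_rate (hpot p hp) (hmem p hp) (hgood p hp) (right_mem_Icc.2 D.hab)
      (Pi.single i 1)
    rw [qf_single] at h1
    have e : ∑ l, D.rate (T p) l * Pi.single (M := fun _ : Fin N => ℝ) i 1 l ^ 2 =
        D.rate (T p) i := by simp [Pi.single_apply]
    rw [e] at h1
    rw [div_le_iff₀ (hratepos p hp i)]
    simp only [hA, Box.mis, Pi.add_apply, dia, if_true]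
    linarith
  have hfree : ∀ p ∈ paramSet N, ∀ i, weight p (i : Fin N) = 0 →
      A p i i / D.rate (T p) i = 2 := by
    intro p hp i hi
    have h1 := Box.sol_free (hpot p hp) (hmem p hp) (j := i) (fun x _ l => hzero p i x l hi)
      (right_mem_Icc.2 D.hab)
    rw [div_eq_iff (hratepos p hp i).ne']
    simp only [hA, Box.mis, Pi.add_apply, dia, if_true, hT] at h1 ⊢
    linarith
  have hflipA : ∀ g, ∀ p ∈ paramSet N, T (flipR g p) = T p ∧
      A (flipR g p) = conjA (signs g) (A p) := by
    intro g p hp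
    have e : V (flipR g p) = fun x => conjA (signs g) (V p x) := funext fun x => hflip g p x
    have hV' : Pot D fun x => conjA (signs g) (V p x) := e ▸ hpot _ (flipR_mem hp g)
    have e1 : T (flipR g p) = T p := by
      simp only [hT, e]
      exact Box.thr_conjA (hpot p hp) hV' (signs_pm g)
    refine ⟨e1, ?_⟩
    have hss : ∀ i, signs g i * signs g i = 1 := fun i => by
      rcases signs_pm g i with h | h <;> simp [h]
    simp only [hA, Box.mis, e1]
    rw [e, Box.sol_conjA (hpot p hp) hV' (hmem p hp) (signs_pm g) (right_mem_Icc.2 D.hab)]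
    funext i l
    have := congrFun (congrFun (conjA_dia hss (D.rate (T p))) i) l
    simp only [conjA, Pi.add_apply] at this ⊢
    linarith
  suffices hex : ∃ p ∈ paramSet N, ∀ e, eqns D V e p = 0 by
    obtain ⟨p, hp, hall⟩ := hex
    refine ⟨⟨p, hp⟩, ?_⟩
    have hsym : ∀ i l, A p i l = A p l i := fun i l => by
      simp only [hA, Box.mis, Pi.add_apply]
      rw [dia_symm _ i l, Box.sol_symm (hpot p hp) (hmem p hp) (right_mem_Icc.2 D.hab) i l]
    have hoff : ∀ i l, i ≠ l → A p i l = 0 := by
      intro i l hne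
      rcases lt_or_gt_of_ne hne with h | h
      · simpa [eqns, lower, hA, hT] using hall (.inl ⟨l, ⟨(i : ℕ), h⟩⟩)
      · rw [hsym]
        simpa [eqns, lower, hA, hT] using hall (.inl ⟨i, ⟨(l : ℕ), h⟩⟩)
    obtain ⟨u, hu, hu0⟩ := Box.exists_null F ⟨p, hp⟩ (by rw [hF]; exact hthr ⟨p, hp⟩)
    rw [hF] at hu0
    set d := fun i => A p i i / D.rate (T p) i with hd
    have hbox : ∀ r : Fin (N - 1), ∑ l ∈ Finset.Ioi (boxIdx r), (d (boxIdx r) - d l) = 0 := fun r => by
      simpa [eqns, hd, hA, hT] using hall (.inr r)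
    have hN : 0 < N := by
      obtain ⟨i, -⟩ := Function.ne_iff.1 hu
      exact i.pos
    set last : Fin N := ⟨N - 1, by omega⟩
    have heq : ∀ (t : ℕ) (i : Fin N), N - 1 - (i : ℕ) = t → d i = d last := by
      intro t
      induction t using Nat.strong_induction_on with
      | _ t ih =>
        intro i hi
        by_cases hl : (i : ℕ) = N - 1
        · rw [show i = last from Fin.ext hl]
        have hlt : (i : ℕ) < N - 1 := by omega
        have h2 := hbox ⟨i, hlt⟩
        have e : boxIdx (⟨i, hlt⟩ : Fin (N - 1)) = i := rfl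
        rw [e, Finset.sum_congr rfl fun l hl' => by
          rw [ih (N - 1 - (l : ℕ)) (by
            have := Finset.mem_Ioi.1 hl'
            have : (i : ℕ) < (l : ℕ) := this
            omega) l rfl]] at h2
        rw [Finset.sum_const, nsmul_eq_mul, mul_eq_zero] at h2
        rcases h2 with h2 | h2
        · exfalso
          have hne : (Finset.Ioi i).Nonempty :=
            ⟨last, Finset.mem_Ioi.2 (show (i : ℕ) < N - 1 from hlt)⟩
          exact absurd (Nat.cast_eq_zero.1 h2) hne.card_pos.ne'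
        · linarith
    have hAd : ∀ i l, A p i l = if i = l then d last * D.rate (T p) i else 0 := by
      intro i l
      split_ifs with h
      · subst h
        rw [← heq _ i rfl, hd]
        simp only
        rw [div_mul_cancel₀ _ (hratepos p hp i).ne']
      · exact hoff i l h
    have hq : qf (A p) u = d last * ∑ i, D.rate (T p) i * u i ^ 2 := by
      rw [show A p = dia (fun i => d last * D.rate (T p) i) from
        funext fun i => funext fun l => hAd i l, qf_dia, Finset.mul_sum]
      exact Finset.sum_congr rfl fun i _ => by ring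
    have hpos : 0 < ∑ i, D.rate (T p) i * u i ^ 2 := by
      obtain ⟨i, hi⟩ := Function.ne_iff.1 hu
      exact Finset.sum_pos' (fun j _ => mul_nonneg (hratepos p hp j).le (sq_nonneg _))
        ⟨i, Finset.mem_univ i, mul_pos (hratepos p hp i)
          (lt_of_le_of_ne (sq_nonneg _) (Ne.symm (pow_ne_zero 2 hi)))⟩
    have hz : d last = 0 := by
      have : qf (A p) u = 0 := hu0
      rw [hq] at this
      exact (mul_eq_zero.1 this).resolve_right hpos.ne'
    funext i l
    simpa [hA, hT, hz] using hAd i l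
  refine exists_zero (eqns D V) ?_ ?_ ?_ ?_ ?_
  · intro e
    rw [continuousOn_iff_continuous_domRestrict]
    have hthrc : Continuous fun q : Param N => D.thr (F.V q) := Box.continuous_thr F
    have hmis : Continuous fun q : Param N => D.mis (F.V q) (D.thr (F.V q)) :=
      Continuous.comp (g := fun z : Param N × Icc D.low D.top => D.mis (F.V z.1) z.2)
        (f := fun q : Param N => (q, (⟨D.thr (F.V q), Box.thr_mem (F.pot q)⟩ : Icc D.low D.top)))
        (Box.continuous_mis F) (continuous_id.prodMk (hthrc.subtype_mk _))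
    have hmis' : Continuous fun q : Param N => A q.1 := by simpa [hA, hT, hF] using hmis
    have hent : ∀ i l, Continuous fun q : Param N => A q.1 i l := fun i l =>
      (continuous_apply l).comp ((continuous_apply i).comp hmis')
    have hrate : ∀ i, Continuous fun q : Param N => D.rate (T q.1) i := by
      intro i
      have : Continuous fun q : Param N => T q.1 := by simpa [hT, hF] using hthrc
      exact Real.continuous_sqrt.comp (continuous_const.sub this)
    rcases e with q | r
    · exact hent _ _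
    · exact continuous_finsetSum _ fun l _ =>
        ((hent _ _).div (hrate _) fun q => (hratepos q.1 q.2 _).ne').sub
          ((hent _ _).div (hrate _) fun q => (hratepos q.1 q.2 _).ne')
  · intro g p hp q
    obtain ⟨-, e2⟩ := hflipA g p hp
    show A (flipR g p) (lower q) q.1 = _
    rw [e2]
    simp only [conjA, signs, sg_add, Int.cast_mul, eqns, hA, hT]
    ring
  · intro g p hp r
    obtain ⟨e1, e2⟩ := hflipA g p hp
    have hss : ∀ i, signs g i * signs g i = 1 := fun i => by
      rcases signs_pm g i with h | h <;> simp [h]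
    show ∑ l ∈ Finset.Ioi (boxIdx r), (A (flipR g p) (boxIdx r) (boxIdx r) /
      D.rate (T (flipR g p)) (boxIdx r) - A (flipR g p) l l / D.rate (T (flipR g p)) l) = _
    rw [e1, e2]
    simp only [conjA, hss, one_mul]
    rfl
  · intro p hp r h
    refine Finset.sum_nonneg fun l _ => sub_nonneg.2 ?_
    show A p l l / D.rate (T p) l ≤ A p (boxIdx r) (boxIdx r) / D.rate (T p) (boxIdx r)
    rw [hfree p hp (boxIdx r) (weight_zero_of_bot h)]
    exact hd2 p hp l
  · intro p hp r h
    refine Finset.sum_nonpos fun l hl => sub_nonpos.2 ?_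
    show A p (boxIdx r) (boxIdx r) / D.rate (T p) (boxIdx r) ≤ A p l l / D.rate (T p) l
    have hrl : (r : ℕ) < (l : ℕ) := by
      have h' : boxIdx r < l := Finset.mem_Ioi.1 hl
      exact h'
    rw [hfree p hp l (weight_zero_of_top h hrl)]
    exact hd2 p hp _

lemma posSemidef_of_qf {A : Matrix (Fin N) (Fin N) ℝ} (hs : Aᵀ = A)
    (h : ∀ u, 0 ≤ qf (fun i l => A i l) u) : A.PosSemidef := by
  refine Matrix.PosSemidef.of_dotProduct_mulVec_nonneg
    (by rw [Matrix.IsHermitian, conjTranspose_eq_transpose_of_trivial, hs]) fun u => ?_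
  rw [star_trivial, ← qf_eq_dot]
  exact h u

/-- The lifting lemma. -/
theorem exists_lift {a b : ℝ} {W : ℝ → Matrix (Fin m) (Fin m) ℝ} {ψ dψ : Fin N → ℝ → Fin m → ℝ}
    {k : Fin N → ℝ} (h : LiftData a b W ψ dψ k) {η : ℝ} (hη : 0 < η) :
    ∃ (L : Fin N → ℝ) (R : ℝ → Matrix (Fin N) (Fin m) ℝ) (M : ℝ → Matrix (Fin N) (Fin N) ℝ),
      (∀ i, 0 < L i) ∧ (∀ i, k i ^ 2 - η ≤ L i ^ 2) ∧ ContinuousOn R (Icc a b) ∧
      (∀ x, (1 - (R x)ᵀ * R x).PosSemidef) ∧
      (∀ x ∈ Icc a b, (M x).IsHermitian ∧ (Matrix.diagonal L - M x).PosSemidef ∧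
        (M x + Matrix.diagonal L).PosSemidef) ∧
      M a = Matrix.diagonal L ∧ M b = -Matrix.diagonal L ∧
      ∀ x ∈ Icc a b, ∀ i l, HasDerivWithinAt (fun y => M y i l)
        ((Matrix.diagonal (fun i => L i ^ 2) - M x * M x - R x * W x * (R x)ᵀ) i l)
        (Icc a b) x := by
  rcases Nat.eq_zero_or_pos N with rfl | hN
  · refine ⟨Fin.elim0, fun _ => 0, fun _ => 0, fun i => i.elim0, fun i => i.elim0,
      continuousOn_const, fun x => by simpa using Matrix.PosSemidef.one,
      fun x _ => ⟨Matrix.isHermitian_zero, ?_, ?_⟩, ?_, ?_, fun x _ i => i.elim0⟩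
    all_goals first
      | (ext i; exact i.elim0)
      | (refine posSemidef_of_qf (by ext i; exact i.elim0) fun u => ?_; simp [qf])
  obtain ⟨ν, hν, hmass⟩ := h.mass
  have hI0 : 0 ≤ ∫ x in a..b, (W x).trace :=
    intervalIntegral.integral_nonneg h.le fun x hx => (h.potPos x hx).trace_nonneg
  obtain ⟨top, htop, hle1, hle2⟩ : ∃ top > 0, top ≤ η ∧ ∀ i, top < k i ^ 2 := by
    have hne : (Finset.univ.image fun i => k i ^ 2).Nonempty := by
      simp [Fin.pos_iff_nonempty.1 hN]
    have hmin : 0 < (Finset.univ.image fun i => k i ^ 2).min' hne := by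
      rw [Finset.lt_min'_iff]
      intro y hy
      obtain ⟨i, -, rfl⟩ := Finset.mem_image.1 hy
      exact pow_pos (h.kPos i) 2
    refine ⟨min η ((Finset.univ.image fun i => k i ^ 2).min' hne / 2), lt_min hη (by linarith),
      min_le_left _ _, fun i => ?_⟩
    have := Finset.min'_le _ _ (Finset.mem_image.2 ⟨i, Finset.mem_univ i, rfl⟩ :
      k i ^ 2 ∈ Finset.univ.image fun i => k i ^ 2)
    exact lt_of_le_of_lt (min_le_right _ _) (by linarith)
  set δ := top * ν / ((N : ℝ) ^ 2 * ((∫ x in a..b, (W x).trace) + 1)) with hδdef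
  have hN' : (0 : ℝ) < N := by exact_mod_cast hN
  have hδ : 0 < δ := by positivity
  obtain ⟨B, hB0, hB⟩ := exists_bound h hδ
  let D : Box N :=
    { a := a, b := b, hab := h.le, k2 := fun i => k i ^ 2, B := B, hB := hB0, top := top,
      htop := htop.le, htop' := hle2 }
  set F := potFam h hδ D rfl rfl hB
  have hthr : ∀ p : Param N, D.thr (compPot δ W ψ p.1) < top := by
    intro p
    rcases lt_or_ge (D.thr (compPot δ W ψ p.1)) 0 with h0 | h0
    · linarith
    have hg := good_le h hδ (D := D) rfl rfl (fun _ => rfl) (F.pot p) (Box.thr_mem (F.pot p)) h0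
      (Box.good_thr F p)
    obtain ⟨l, hl⟩ := exists_weight_ge (p := p.1) hN
    have hlow : ν / (N : ℝ) ^ 2 ≤ ∑ j : Fin N, weight p.1 j ^ 2 *
        ∫ x in a..b, ∑ μ, comb (coef p.1 j) ψ x μ ^ 2 := by
      have hnn : ∀ j : Fin N, 0 ≤ weight p.1 j ^ 2 *
          ∫ x in a..b, ∑ μ, comb (coef p.1 j) ψ x μ ^ 2 := fun j => mul_nonneg (sq_nonneg _)
        (intervalIntegral.integral_nonneg h.le fun x _ => Finset.sum_nonneg fun μ _ => sq_nonneg _)
      refine le_trans ?_ (Finset.single_le_sum (fun j _ => hnn j) (Finset.mem_univ l))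
      have h1 : ν ≤ ∫ x in a..b, ∑ μ, comb (coef p.1 l) ψ x μ ^ 2 :=
        le_trans (le_mul_of_one_le_right hν.le (sum_coef_sq p.2 l)) (hmass _)
      have h2 : (1 / (N : ℝ)) ^ 2 ≤ weight p.1 l ^ 2 := pow_le_pow_left₀ (by positivity) hl 2
      calc ν / (N : ℝ) ^ 2 = (1 / (N : ℝ)) ^ 2 * ν := by ring
        _ ≤ _ := mul_le_mul h2 h1 hν.le (sq_nonneg _)
    by_contra hc
    have h3 : top * (ν / (N : ℝ) ^ 2) ≤ δ * ∫ x in a..b, (W x).trace :=
      le_trans (mul_le_mul (not_lt.1 hc) hlow (by positivity) h0) hg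
    have h4 : δ * ((∫ x in a..b, (W x).trace) + 1) = top * (ν / (N : ℝ) ^ 2) := by
      rw [hδdef]; field_simp
    linarith
  obtain ⟨p, hp⟩ := exists_param (compPot δ W ψ) F (fun _ => rfl)
    (fun g p x => compPot_flip W ψ g p x) (fun p j x l hj => compPot_row_zero W ψ hj x l) hthr
  set lam := D.thr (compPot δ W ψ p.1) with hlam
  have hl : lam ∈ Icc D.low D.top := Box.thr_mem (F.pot p)
  have hg : Box.Good D (compPot δ W ψ p.1) lam := Box.good_thr F p
  have hV : Pot D (compPot δ W ψ p.1) := F.pot p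
  set S := D.sol (compPot δ W ψ p.1) lam with hS
  have hsymm : ∀ x ∈ Icc a b, (Matrix.of (S x))ᵀ = Matrix.of (S x) := fun x hx => by
    ext i l
    exact Box.sol_symm hV hl hx l i
  refine ⟨D.rate lam, fun x => polar δ (trial p.1 ψ x), fun x => Matrix.of (S x),
    fun i => Real.sqrt_pos.2 (D.rate_pos hl i), fun i => ?_, ?_,
    fun x => polar_contraction hδ _, fun x hx => ⟨?_, ?_, ?_⟩, ?_, ?_, fun x hx i l => ?_⟩
  · rw [D.rate_sq hl]
    have : lam ≤ top := hl.2
    show k i ^ 2 - η ≤ k i ^ 2 - lam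
    linarith
  · refine (continuous_polar hδ).comp_continuousOn ?_
    refine continuousOn_pi.2 fun j => continuousOn_pi.2 fun μ => ?_
    have := h.psiCont
    simp only [trial, Matrix.of_apply, comb]
    fun_prop
  · rw [Matrix.IsHermitian, conjTranspose_eq_transpose_of_trivial, hsymm x hx]
  · refine posSemidef_of_qf (by rw [Matrix.transpose_sub, Matrix.diagonal_transpose, hsymm x hx])
      fun u => ?_
    have e : (fun i l => (Matrix.diagonal (D.rate lam) - Matrix.of (S x)) i l) =
        dia (D.rate lam) - S x := rfl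
    rw [e, qf_sub, qf_dia]
    linarith [Box.sol_le_rate hV hl hg hx u]
  · refine posSemidef_of_qf (by rw [Matrix.transpose_add, Matrix.diagonal_transpose, hsymm x hx])
      fun u => ?_
    have e : (fun i l => (Matrix.of (S x) + Matrix.diagonal (D.rate lam)) i l) =
        S x + dia (D.rate lam) := rfl
    rw [e, qf_add, qf_dia]
    linarith [Box.neg_rate_le_sol hV hl hp hx u]
  · ext i l
    show S a i l = _
    rw [hS, (Box.sol_spec hV hl).1]
    rfl
  · ext i l
    have := congrFun (congrFun hp i) l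
    simp only [Box.mis, Pi.add_apply, Pi.zero_apply] at this
    show S b i l = -(Matrix.diagonal (D.rate lam) i l)
    have e : dia (D.rate lam) i l = Matrix.diagonal (D.rate lam) i l := rfl
    rw [← e]
    exact eq_neg_of_add_eq_zero_left this
  · have h1 := Box.hasDeriv_entry ((Box.sol_spec hV hl).2 x hx) i l
    rw [Box.good_deriv hV hl hg hx] at h1
    refine h1.congr_deriv ?_
    simp only [Pi.sub_apply, Matrix.sub_apply, Matrix.mul_apply, Matrix.of_apply, compPot,
      D.rate_sq hl, hS]
    rfl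

end Vale.Agent.P371.Lift
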